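import Mathlib

namespace Vale.Agent.P262

/-- `SignedPrefixBound d R` says `σ(d) ≤ R`: every finite sequence `v₁,…,v_N` in the Euclidean unit
ball of `ℝ^d` admits signs `ε ∈ {-1,1}^N` such that every prefix sum `∑_{i<k} ε_i v_i`,
`0 ≤ k ≤ N`, has Euclidean norm at most `R`. -/
def SignedPrefixBound (d : ℕ) (R : ℝ) : Prop :=
  ∀ (N : ℕ) (v : Fin N → EuclideanSpace ℝ (Fin d)), (∀ i, ‖v i‖ ≤ 1) →
    ∃ ε : Fin N → ℝ, (∀ i, ε i = 1 ∨ ε i = -1) ∧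
      ∀ k : ℕ, k ≤ N → ‖∑ i : Fin N, (if i.val < k then ε i • v i else 0)‖ ≤ R

end Vale.Agent.P262
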