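import Vale.Agent.P262.FBMain

open MeasureTheory ProbabilityTheory Set Finset
open scoped InnerProductSpace

namespace Vale.Agent.P262.FB

/-- Euclidean space. -/
abbrev Eu (d : ℕ) := EuclideanSpace ℝ (Fin d)

lemma gauss_pdf_mul (c x : ℝ) : gaussianPDFReal 0 1 x * Real.exp (c * x ^ 2)
    = (√(2 * Real.pi))⁻¹ * Real.exp (-(1 / 2 - c) * x ^ 2) := by
  simp only [gaussianPDFReal, NNReal.coe_one, mul_one, sub_zero]
  rw [mul_assoc, ← Real.exp_add]
  congr 2
  ring

lemma exp_sq_integrable {c : ℝ} (hc : c < 1 / 2) :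
    Integrable (fun x : ℝ => Real.exp (c * x ^ 2)) (gaussianReal 0 1) := by
  rw [gaussianReal_of_var_ne_zero 0 one_ne_zero]
  rw [integrable_withDensity_iff_integrable_smul' (measurable_gaussianPDF _ _)
    (Filter.Eventually.of_forall fun x => ENNReal.ofReal_lt_top)]
  have h := (integrable_exp_neg_mul_sq (b := 1 / 2 - c) (by linarith)).const_mul (√(2 * Real.pi))⁻¹
  refine h.congr (Filter.Eventually.of_forall fun x => ?_)
  simp only [smul_eq_mul, toReal_gaussianPDF, gauss_pdf_mul]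

lemma exp_sq_integral : ∫ x, Real.exp (x ^ 2 / 4) ∂(gaussianReal 0 1) = √2 := by
  rw [integral_gaussianReal_eq_integral_smul (one_ne_zero)]
  have h1 : ∀ x : ℝ, gaussianPDFReal 0 1 x • Real.exp (x ^ 2 / 4)
      = (√(2 * Real.pi))⁻¹ * Real.exp (-(1 / 4) * x ^ 2) := by
    intro x
    have := gauss_pdf_mul (1 / 4) x
    rw [smul_eq_mul]
    have e : x ^ 2 / 4 = 1 / 4 * x ^ 2 := by ring
    rw [e, this]
    norm_num
  simp_rw [h1]
  rw [integral_const_mul, integral_gaussian]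
  have h2 : Real.pi / (1 / 4) = 2 * (2 * Real.pi) := by ring
  have h3 : √(2 * (2 * Real.pi)) = √2 * √(2 * Real.pi) := Real.sqrt_mul (by norm_num) _
  rw [h2, h3]
  have hp : (0 : ℝ) < √(2 * Real.pi) := Real.sqrt_pos.mpr (by positivity)
  field_simp

lemma norm_sq_toLp {d : ℕ} (y : Fin d → ℝ) : ‖(WithLp.toLp 2 y : Eu d)‖ ^ 2 = ∑ i, y i ^ 2 := by
  rw [EuclideanSpace.real_norm_sq_eq]

lemma exp_norm_integrable {c : ℝ} (hc : c < 1 / 2) (d : ℕ) :
    Integrable (fun x : Eu d => Real.exp (c * ‖x‖ ^ 2)) (stdGaussian (Eu d)) := by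
  rw [← map_pi_eq_stdGaussian]
  have hm : Measurable (WithLp.toLp 2 : (Fin d → ℝ) → Eu d) :=
    (PiLp.continuous_toLp 2 _).measurable
  rw [integrable_map_measure ?_ hm.aemeasurable]
  · have h := Integrable.fintype_prod (f := fun (_ : Fin d) (x : ℝ) => Real.exp (c * x ^ 2))
      (μ := fun _ => gaussianReal 0 1) (fun _ => exp_sq_integrable hc)
    refine h.congr (Filter.Eventually.of_forall fun y => ?_)
    simp only [Function.comp]
    rw [norm_sq_toLp, Finset.mul_sum, Real.exp_sum]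
  · have hc' : Continuous (fun x : Eu d => Real.exp (c * ‖x‖ ^ 2)) := by fun_prop
    exact hc'.aestronglyMeasurable

lemma exp_norm_integral (d : ℕ) :
    ∫ x : Eu d, Real.exp (‖x‖ ^ 2 / 4) ∂(stdGaussian (Eu d)) = √2 ^ d := by
  rw [← map_pi_eq_stdGaussian]
  have hm : Measurable (WithLp.toLp 2 : (Fin d → ℝ) → Eu d) :=
    (PiLp.continuous_toLp 2 _).measurable
  rw [integral_map hm.aemeasurable]
  · have h := integral_fintype_prod_eq_prod (𝕜 := ℝ) (μ := fun _ : Fin d => gaussianReal 0 1)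
      (fun (_ : Fin d) (x : ℝ) => Real.exp (x ^ 2 / 4))
    have h2 : ∀ y : Fin d → ℝ, Real.exp (‖(WithLp.toLp 2 y : Eu d)‖ ^ 2 / 4)
        = ∏ i, Real.exp (y i ^ 2 / 4) := by
      intro y
      rw [norm_sq_toLp, Finset.sum_div, Real.exp_sum]
    simp_rw [h2]
    rw [h, Finset.prod_congr rfl (fun _ _ => exp_sq_integral)]
    simp
  · have hc' : Continuous (fun x : Eu d => Real.exp (‖x‖ ^ 2 / 4)) := by fun_prop
    exact hc'.aestronglyMeasurable

/-- The Gaussian exponential is admissible. -/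
lemma exp_adm (d : ℕ) : Adm (fun x : Eu d => Real.exp (‖x‖ ^ 2 / 4)) where
  convex := by
    have h1 : ConvexOn ℝ Set.univ (fun x : Eu d => ‖x‖ ^ 2) :=
      (convexOn_norm convex_univ).pow (fun _ _ => norm_nonneg _) 2
    have h2 : ConvexOn ℝ Set.univ (fun x : Eu d => ‖x‖ ^ 2 / 4) := by
      have := h1.smul (c := (1 / 4 : ℝ)) (by norm_num)
      refine this.congr ?_
      intro x _
      simp only [Pi.smul_apply, smul_eq_mul]
      ring
    refine ⟨convex_univ, fun x _ y _ a b ha hb hab => ?_⟩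
    have h21 := h2.2 (Set.mem_univ x) (Set.mem_univ y) ha hb hab
    have h31 := convexOn_exp.2 (Set.mem_univ (‖x‖ ^ 2 / 4)) (Set.mem_univ (‖y‖ ^ 2 / 4)) ha hb hab
    exact (Real.exp_le_exp.mpr h21).trans h31
  nonneg := fun x => (Real.exp_pos _).le
  integ := by
    intro v
    have h := (exp_norm_integrable (c := 3 / 8) (by norm_num) d).const_mul (Real.exp (3 * ‖v‖ ^ 2 / 4))
    have hc' : Continuous (fun x : Eu d => Real.exp (‖x + v‖ ^ 2 / 4)) := by fun_prop
    refine Integrable.mono' h hc'.aestronglyMeasurable (Filter.Eventually.of_forall fun x => ?_)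
    rw [Real.norm_eq_abs, abs_of_pos (Real.exp_pos _), ← Real.exp_add]
    apply Real.exp_le_exp.mpr
    have h1 := norm_add_le x v
    have h2 := norm_nonneg x
    have h3 := norm_nonneg v
    have h4 : ‖x + v‖ ^ 2 ≤ (‖x‖ + ‖v‖) ^ 2 := by
      apply pow_le_pow_left₀ (norm_nonneg _) h1
    nlinarith [sq_nonneg (‖x‖ - 2 * ‖v‖)]

end Vale.Agent.P262.FB
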