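import Vale.Agent.P262.WeightedCore

open Finset BigOperators

namespace Vale.Agent.P262.Weighted

variable {d : ℕ}

/-- The sign of index `i` under the pattern `A` of plus indices. -/
noncomputable def sg (A : Finset ℕ) (i : ℕ) : ℝ := if i ∈ A then 1 else -1

/-- Every signing of the first `N` indices is the sign pattern of a subset of `range N`. -/
lemma sg_pattern (ε : ℕ → ℝ) (hε : ∀ i, ε i = 1 ∨ ε i = -1) (N : ℕ) :
    ∃ A ∈ (range N).powerset, ∀ i < N, sg A i = ε i := by
  classical
  refine ⟨(range N).filter (fun i => ε i = 1), Finset.mem_powerset.mpr (Finset.filter_subset _ _), ?_⟩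
  intro i hi
  by_cases h : ε i = 1
  · have hm : i ∈ (range N).filter (fun i => ε i = 1) :=
      Finset.mem_filter.mpr ⟨Finset.mem_range.mpr hi, h⟩
    simp [sg, hm, h]
  · have hm : i ∉ (range N).filter (fun i => ε i = 1) := fun hc => h (Finset.mem_filter.mp hc).2
    simp only [sg, hm, if_false]
    rcases hε i with h' | h'
    · exact absurd h' h
    · exact h'.symm

/-- **Distribution form.** There is a probability distribution on the sign patterns such that
every prefix has expected squared norm at most `4 d`. -/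
theorem distribution (v : ℕ → Eu d) (hv : ∀ i, ‖v i‖ ≤ 1) (N : ℕ) :
    ∃ w : Finset ℕ → ℝ, (∀ A, 0 ≤ w A) ∧ ∑ A ∈ (range N).powerset, w A = 1 ∧
      ∀ t < N, ∑ A ∈ (range N).powerset,
        w A * ‖∑ i ∈ range (t + 1), sg A i • v i‖ ^ 2 ≤ 4 * d := by
  classical
  let ι := ↥((range N).powerset)
  let pt : ι → Fin N → ℝ := fun A t => ‖∑ i ∈ range ((t : ℕ) + 1), sg (A : Finset ℕ) i • v i‖ ^ 2
  let T : (ι → ℝ) →ₗ[ℝ] (Fin N → ℝ) :=
    { toFun := fun w => ∑ A, w A • pt A
      map_add' := by
        intro a b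
        rw [← Finset.sum_add_distrib]
        refine Finset.sum_congr rfl fun A _ => ?_
        rw [Pi.add_apply, add_smul]
      map_smul' := by
        intro c a
        simp only [RingHom.id_apply, Finset.smul_sum]
        refine Finset.sum_congr rfl fun A _ => ?_
        rw [Pi.smul_apply, smul_assoc] }
  let s : Set (Fin N → ℝ) := T '' stdSimplex ℝ ι
  let C : Set (Fin N → ℝ) := {z | ∀ t, z t ≤ 4 * d}
  have hs1 : Convex ℝ s := (convex_stdSimplex ℝ ι).linear_image T
  have hs2 : IsCompact s := (isCompact_stdSimplex ℝ ι).image T.continuous_of_finiteDimensional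
  have hC1 : Convex ℝ C := by
    intro a ha b hb x y hx hy hxy t
    have h1 := ha t
    have h2 := hb t
    simp only [Pi.add_apply, Pi.smul_apply, smul_eq_mul]
    calc x * a t + y * b t ≤ x * (4 * d) + y * (4 * d) := by
          apply add_le_add
          · exact mul_le_mul_of_nonneg_left h1 hx
          · exact mul_le_mul_of_nonneg_left h2 hy
      _ = 4 * d := by rw [← add_mul, hxy, one_mul]
  have hC2 : IsClosed C := by
    have : C = ⋂ t, {z : Fin N → ℝ | z t ≤ 4 * d} := by
      ext z
      simp [C]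
    rw [this]
    exact isClosed_iInter fun t => isClosed_le (continuous_apply t) continuous_const
  have hnd : ¬ Disjoint s C := by
    intro hdis
    obtain ⟨f, u, u', hfs, huu', hfC⟩ := geometric_hahn_banach_compact_closed hs1 hs2 hC1 hC2 hdis
    -- coefficients
    let c : Fin N → ℝ := fun t => f (fun j => if t = j then 1 else 0)
    have hf : ∀ z : Fin N → ℝ, f z = ∑ t, z t * c t := by
      intro z
      have := LinearMap.pi_apply_eq_sum_univ (f : (Fin N → ℝ) →ₗ[ℝ] ℝ) z
      simpa [c] using this
    let one4 : Fin N → ℝ := fun _ => 4 * d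
    have hone4 : one4 ∈ C := fun t => le_refl _
    have hcneg : ∀ t, c t ≤ 0 := by
      intro t
      by_contra hcon
      push Not at hcon
      let R : ℝ := (f one4 - u') / c t
      have hR : 0 ≤ R := div_nonneg (by linarith [hfC one4 hone4]) hcon.le
      let z : Fin N → ℝ := fun j => 4 * d - if t = j then R else 0
      have hz : z ∈ C := by
        intro j
        simp only [z]
        split_ifs <;> linarith
      have hfz : f z = f one4 - R * c t := by
        rw [hf, hf]
        have : ∀ j, z j * c j = one4 j * c j - (if t = j then R * c t else 0) := by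
          intro j
          simp only [z, one4]
          split_ifs with h
          · subst h; ring
          · ring
        simp only [this]
        rw [Finset.sum_sub_distrib]
        simp
      have h2 := hfC z hz
      have h3 : R * c t = f one4 - u' := by
        simp only [R]
        field_simp
      rw [hfz, h3] at h2
      linarith
    -- the weights
    let p : ℕ → ℝ := fun t => if h : t < N then - c ⟨t, h⟩ else 0
    have hp : ∀ t, 0 ≤ p t := by
      intro t
      simp only [p]
      split_ifs with h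
      · linarith [hcneg ⟨t, h⟩]
      · exact le_refl _
    obtain ⟨ε, hε, hsum⟩ := main_nonneg (v := v) hp hv N
    obtain ⟨A, hA, hAε⟩ := sg_pattern ε hε N
    let A' : ι := ⟨A, hA⟩
    have hptA : pt A' ∈ s := by
      refine ⟨fun B => if B = A' then 1 else 0, ⟨?_, ?_⟩, ?_⟩
      · intro B
        dsimp only
        split_ifs <;> norm_num
      · dsimp only
        rw [Finset.sum_ite_eq' Finset.univ A' (fun _ => (1 : ℝ))]
        simp
      · change ∑ B, (if B = A' then (1 : ℝ) else 0) • pt B = pt A'
        rw [Finset.sum_eq_single A']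
        · simp
        · intro B _ hB
          simp [hB]
        · simp
    have h1 := hfs _ hptA
    have h2 := hfC one4 hone4
    have h3 : f (pt A') = - ∑ t ∈ range N, p t * ‖∑ i ∈ range (t + 1), ε i • v i‖ ^ 2 := by
      rw [hf, Finset.sum_range, ← Finset.sum_neg_distrib]
      refine Finset.sum_congr rfl fun t _ => ?_
      have hpt : p t = - c t := by simp [p]
      rw [hpt]
      have : pt A' t = ‖∑ i ∈ range ((t : ℕ) + 1), ε i • v i‖ ^ 2 := by
        simp only [pt, A']
        congr 2
        refine Finset.sum_congr rfl fun i hi => ?_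
        have hi' : i < N := by
          have := Finset.mem_range.mp hi
          have := t.2
          omega
        rw [hAε i hi']
      rw [this]
      ring
    have h4 : f one4 = - (4 * d * ∑ t ∈ range N, p t) := by
      rw [hf, Finset.mul_sum, Finset.sum_range, ← Finset.sum_neg_distrib]
      refine Finset.sum_congr rfl fun t _ => ?_
      have hpt : p t = - c t := by simp [p]
      rw [hpt]
      simp only [one4]
      ring
    rw [h3] at h1
    rw [h4] at h2
    linarith
  rw [Set.not_disjoint_iff] at hnd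
  obtain ⟨z, ⟨w, hw, rfl⟩, hzC⟩ := hnd
  refine ⟨fun A => if h : A ∈ (range N).powerset then w ⟨A, h⟩ else 0, ?_, ?_, ?_⟩
  · intro A
    by_cases h : A ∈ (range N).powerset
    · simp only [h, dif_pos]
      exact hw.1 _
    · simp [h]
  · rw [← Finset.sum_coe_sort (range N).powerset]
    have := hw.2
    refine Eq.trans ?_ this
    refine Finset.sum_congr rfl fun A _ => ?_
    simp
  · intro t ht
    have h1 := hzC ⟨t, ht⟩
    refine le_trans (le_of_eq ?_) h1
    rw [← Finset.sum_coe_sort (range N).powerset]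
    change _ = (∑ A, w A • pt A) ⟨t, ht⟩
    rw [Finset.sum_apply]
    refine Finset.sum_congr rfl fun A _ => ?_
    simp [pt]

/-- Parallelogram bound. -/
lemma half_add_sq (a b : Eu d) : ‖(1 / 2 : ℝ) • (a + b)‖ ^ 2 ≤ 1 / 2 * ‖a‖ ^ 2 + 1 / 2 * ‖b‖ ^ 2 := by
  rw [norm_smul, mul_pow, Real.norm_eq_abs, sq_abs]
  have h1 := norm_add_sq_real a b
  have h2 := norm_sub_sq_real a b
  have h3 := sq_nonneg ‖a - b‖
  nlinarith

/-- The key rearrangement inequality for a prefix signing. -/
lemma rearr (n : ℕ) (w : ℕ → Eu d) (ε : ℕ → ℝ) (hε : ∀ i, ε i = 1 ∨ ε i = -1)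
    (h0 : ∑ i ∈ range n, w i = 0) :
    ∑ j ∈ range n, ‖∑ l ∈ range n, (if (if ε l = 1 then l else 2 * n - l) ≤
        (if ε j = 1 then j else 2 * n - j) then w l else 0)‖ ^ 2
      ≤ 1 / 2 * ∑ j ∈ range n, ‖∑ i ∈ range (j + 1), w i‖ ^ 2
        + 1 / 2 * ∑ j ∈ range n, ‖∑ i ∈ range (j + 1), ε i • w i‖ ^ 2 := by
  classical
  set κ : ℕ → ℕ := fun l => if ε l = 1 then l else 2 * n - l with hκ
  let S : ℕ → Eu d := fun j => ∑ i ∈ range (j + 1), w i
  let P : ℕ → Eu d := fun j => ∑ i ∈ range (j + 1), ε i • w i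
  let T : ℕ → Eu d := fun j => ∑ i ∈ range j, ((1 - ε i) / 2) • w i
  have hT : ∀ j, T (j + 1) = (1 / 2 : ℝ) • (S j + (- P j)) := by
    intro j
    simp only [T, S, P]
    rw [← Finset.sum_neg_distrib, ← Finset.sum_add_distrib, Finset.smul_sum]
    refine Finset.sum_congr rfl fun i _ => ?_
    rw [← neg_smul, ← one_smul ℝ (w i), smul_smul, smul_smul, mul_one, ← add_smul, smul_smul]
    congr 1
    ring
  have hplus : ∀ j < n, ε j = 1 →
      ∑ l ∈ range n, (if κ l ≤ κ j then w l else 0) = (1 / 2 : ℝ) • (S j + P j) := by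
    intro j hj hεj
    have hκj : κ j = j := by simp [hκ, hεj]
    have hsub : range (j + 1) ⊆ range n := by
      intro i hi
      have := Finset.mem_range.mp hi
      exact Finset.mem_range.mpr (by omega)
    rw [← Finset.sum_subset hsub]
    · simp only [S, P]
      rw [← Finset.sum_add_distrib, Finset.smul_sum]
      refine Finset.sum_congr rfl fun l hl => ?_
      have hl' := Finset.mem_range.mp hl
      rcases hε l with h | h
      · have : κ l ≤ κ j := by simp only [hκ, h, hεj, if_true]; omega
        rw [if_pos this, h, one_smul, ← two_smul ℝ (w l), smul_smul]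
        norm_num
      · have hne : ε l ≠ 1 := by rw [h]; norm_num
        have : ¬ κ l ≤ κ j := by simp only [hκ, hne, hεj, if_true, if_false]; omega
        rw [if_neg this, h]
        simp
    · intro l hl hl'
      have hln := Finset.mem_range.mp hl
      have hlj : j + 1 ≤ l := by
        by_contra hc
        exact hl' (Finset.mem_range.mpr (by omega))
      have : ¬ κ l ≤ κ j := by
        simp only [hκ, hεj, if_true]
        split_ifs <;> omega
      rw [if_neg this]
  have hminus : ∀ j < n, ε j ≠ 1 →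
      ∑ l ∈ range n, (if κ l ≤ κ j then w l else 0) = - T j := by
    intro j hj hεj
    have hκj : κ j = 2 * n - j := by simp [hκ, hεj]
    have hT' : T j = ∑ l ∈ range n, if l < j then ((1 - ε l) / 2) • w l else 0 := by
      have hsub : range j ⊆ range n := by
        intro i hi
        have := Finset.mem_range.mp hi
        exact Finset.mem_range.mpr (by omega)
      simp only [T]
      rw [← Finset.sum_subset hsub]
      · refine Finset.sum_congr rfl fun l hl => ?_
        rw [if_pos (Finset.mem_range.mp hl)]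
      · intro l _ hl'
        have : ¬ l < j := fun hc => hl' (Finset.mem_range.mpr hc)
        rw [if_neg this]
    have hsum : ∑ l ∈ range n, (if κ l ≤ κ j then w l else 0)
        = ∑ l ∈ range n, (w l - if l < j then ((1 - ε l) / 2) • w l else 0) := by
      refine Finset.sum_congr rfl fun l hl => ?_
      have hln := Finset.mem_range.mp hl
      rcases hε l with h | h
      · have : κ l ≤ κ j := by simp only [hκ, h, hεj, if_true, if_false]; omega
        rw [if_pos this]
        by_cases hlj : l < j
        · rw [if_pos hlj, h]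
          simp
        · rw [if_neg hlj, sub_zero]
      · have hne : ε l ≠ 1 := by rw [h]; norm_num
        by_cases hlj : l < j
        · have : ¬ κ l ≤ κ j := by simp only [hκ, hne, hεj, if_false]; omega
          rw [if_neg this, if_pos hlj, h]
          norm_num
        · have : κ l ≤ κ j := by simp only [hκ, hne, hεj, if_false]; omega
          rw [if_pos this, if_neg hlj, sub_zero]
    rw [hsum, Finset.sum_sub_distrib, h0, ← hT', zero_sub]
  -- the telescoping bound on the minus part
  have htele : ∑ j ∈ range n, (if ε j = 1 then (0 : ℝ) else ‖T j‖ ^ 2)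
      ≤ ∑ j ∈ range n, (if ε j = 1 then (0 : ℝ) else ‖T (j + 1)‖ ^ 2) := by
    have h1 : ∑ j ∈ range n, (‖T (j + 1)‖ ^ 2 - ‖T j‖ ^ 2) = ‖T n‖ ^ 2 - ‖T 0‖ ^ 2 :=
      Finset.sum_range_sub (fun j => ‖T j‖ ^ 2) n
    have h2 : T 0 = 0 := by simp [T]
    rw [h2, norm_zero] at h1
    have h3 : ∑ j ∈ range n, (if ε j = 1 then (0 : ℝ) else ‖T (j + 1)‖ ^ 2)
        - ∑ j ∈ range n, (if ε j = 1 then (0 : ℝ) else ‖T j‖ ^ 2)
        = ∑ j ∈ range n, (‖T (j + 1)‖ ^ 2 - ‖T j‖ ^ 2) := by
      rw [← Finset.sum_sub_distrib]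
      refine Finset.sum_congr rfl fun j _ => ?_
      by_cases h : ε j = 1
      · have : T (j + 1) = T j := by
          simp only [T]
          rw [Finset.sum_range_succ, h]
          simp
        simp [h, this]
      · simp [h]
    have h4 := sq_nonneg ‖T n‖
    rw [h1] at h3
    norm_num at h3
    linarith
  -- assemble
  have hsplit : ∑ j ∈ range n, ‖∑ l ∈ range n, (if κ l ≤ κ j then w l else 0)‖ ^ 2
      = ∑ j ∈ range n, (if ε j = 1 then ‖(1 / 2 : ℝ) • (S j + P j)‖ ^ 2 else 0)
        + ∑ j ∈ range n, (if ε j = 1 then (0 : ℝ) else ‖T j‖ ^ 2) := by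
    rw [← Finset.sum_add_distrib]
    refine Finset.sum_congr rfl fun j hj => ?_
    have hj' := Finset.mem_range.mp hj
    by_cases h : ε j = 1
    · rw [hplus j hj' h]
      simp [h]
    · rw [hminus j hj' h, norm_neg]
      simp [h]
  calc ∑ j ∈ range n, ‖∑ l ∈ range n, (if κ l ≤ κ j then w l else 0)‖ ^ 2
      = ∑ j ∈ range n, (if ε j = 1 then ‖(1 / 2 : ℝ) • (S j + P j)‖ ^ 2 else 0)
        + ∑ j ∈ range n, (if ε j = 1 then (0 : ℝ) else ‖T j‖ ^ 2) := hsplit
    _ ≤ ∑ j ∈ range n, (if ε j = 1 then ‖(1 / 2 : ℝ) • (S j + P j)‖ ^ 2 else 0)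
        + ∑ j ∈ range n, (if ε j = 1 then (0 : ℝ) else ‖T (j + 1)‖ ^ 2) := by linarith
    _ = ∑ j ∈ range n, (if ε j = 1 then ‖(1 / 2 : ℝ) • (S j + P j)‖ ^ 2
          else ‖(1 / 2 : ℝ) • (S j + (- P j))‖ ^ 2) := by
        rw [← Finset.sum_add_distrib]
        refine Finset.sum_congr rfl fun j _ => ?_
        by_cases h : ε j = 1
        · simp [h]
        · simp [h, hT]
    _ ≤ ∑ j ∈ range n, (1 / 2 * ‖S j‖ ^ 2 + 1 / 2 * ‖P j‖ ^ 2) := by
        refine Finset.sum_le_sum fun j _ => ?_
        by_cases h : ε j = 1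
        · rw [if_pos h]
          exact half_add_sq _ _
        · rw [if_neg h]
          have := half_add_sq (S j) (- P j)
          rwa [norm_neg] at this
    _ = 1 / 2 * ∑ j ∈ range n, ‖∑ i ∈ range (j + 1), w i‖ ^ 2
        + 1 / 2 * ∑ j ∈ range n, ‖∑ i ∈ range (j + 1), ε i • w i‖ ^ 2 := by
        rw [Finset.mul_sum, Finset.mul_sum, ← Finset.sum_add_distrib]

/-- **Steinitz average form.** A zero-sum family in the unit ball has an ordering with average
squared partial sum at most `4 d`. -/
theorem steinitz_average {n : ℕ} (v : Fin n → Eu d) (hv : ∀ i, ‖v i‖ ≤ 1) (h0 : ∑ i, v i = 0) :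
    ∃ π : Equiv.Perm (Fin n), ∑ k : Fin n, ‖∑ i ∈ Finset.Iic k, v (π i)‖ ^ 2 ≤ 4 * d * n := by
  classical
  let cost : Equiv.Perm (Fin n) → ℝ := fun π => ∑ k : Fin n, ‖∑ i ∈ Finset.Iic k, v (π i)‖ ^ 2
  obtain ⟨π, -, hπ⟩ := Finset.exists_min_image (Finset.univ : Finset (Equiv.Perm (Fin n))) cost
    ⟨1, Finset.mem_univ _⟩
  refine ⟨π, ?_⟩
  let w : ℕ → Eu d := fun t => if h : t < n then v (π ⟨t, h⟩) else 0
  have hwF : ∀ l : Fin n, w l = v (π l) := by
    intro l
    simp [w, l.2]
  have hw : ∀ t, ‖w t‖ ≤ 1 := by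
    intro t
    by_cases h : t < n
    · simp only [w, h, dif_pos]
      exact hv _
    · simp [w, h]
  have hw0 : ∑ i ∈ range n, w i = 0 := by
    rw [Finset.sum_range]
    simp only [hwF]
    rw [Equiv.sum_comp π v, h0]
  obtain ⟨ε, hε, hsum⟩ := main_nonneg (p := fun _ => 1) (v := w) (fun _ => zero_le_one) hw n
  have hmain := rearr n w ε hε hw0
  -- partial sums of the order `π`
  have hpref : ∀ (f : ℕ → Eu d) (k : Fin n),
      ∑ i ∈ Finset.Iic k, f (i : ℕ) = ∑ i ∈ range ((k : ℕ) + 1), f i := by
    intro f k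
    refine Finset.sum_bij (fun i _ => (i : ℕ)) ?_ ?_ ?_ ?_
    · intro i hi
      have : i ≤ k := Finset.mem_Iic.mp hi
      exact Finset.mem_range.mpr (Nat.lt_succ_of_le this)
    · intro a _ b _ hab
      exact Fin.ext hab
    · intro b hb
      have hb' := Nat.le_of_lt_succ (Finset.mem_range.mp hb)
      have hbn : b < n := lt_of_le_of_lt hb' k.2
      exact ⟨⟨b, hbn⟩, Finset.mem_Iic.mpr hb', rfl⟩
    · intro _ _
      rfl
  have hcost : cost π = ∑ j ∈ range n, ‖∑ i ∈ range (j + 1), w i‖ ^ 2 := by
    rw [Finset.sum_range]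
    refine Finset.sum_congr rfl fun k _ => ?_
    rw [← hpref w k]
    simp only [hwF]
  -- the new order
  let κ : ℕ → ℕ := fun l => if ε l = 1 then l else 2 * n - l
  let κF : Fin n → ℕ := fun l => κ l
  have hκinj : Function.Injective κF := by
    intro a b hab
    have ha := a.2
    have hb := b.2
    apply Fin.ext
    simp only [κF, κ] at hab
    split_ifs at hab <;> omega
  let τ : Equiv.Perm (Fin n) := Tuple.sort κF
  have hmono : Monotone (κF ∘ τ) := Tuple.monotone_sort κF
  have hiff : ∀ i k : Fin n, i ≤ k ↔ κF (τ i) ≤ κF (τ k) := by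
    intro i k
    constructor
    · intro h
      exact hmono h
    · intro h
      by_contra hc
      have hki : k ≤ i := le_of_lt (not_le.mp hc)
      have h2 : κF (τ k) ≤ κF (τ i) := hmono hki
      have h3 : κF (τ k) = κF (τ i) := le_antisymm h2 h
      have h4 := τ.injective (hκinj h3)
      exact hc (h4 ▸ le_refl _)
  have hcost' : cost (τ.trans π) = ∑ j ∈ range n, ‖∑ l ∈ range n,
      (if κ l ≤ κ j then w l else 0)‖ ^ 2 := by
    rw [Finset.sum_range]
    have hF : ∀ k : Fin n, ∑ i ∈ Finset.Iic k, v ((τ.trans π) i)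
        = ∑ l ∈ range n, (if κ l ≤ κ (τ k) then w l else 0) := by
      intro k
      rw [Finset.sum_range]
      rw [← Finset.sum_filter]
      refine Finset.sum_equiv τ ?_ ?_
      · intro i
        rw [Finset.mem_Iic, Finset.mem_filter]
        simp only [Finset.mem_univ, true_and]
        exact hiff i k
      · intro i _
        rw [hwF]
        rfl
    have h2 := Equiv.sum_comp τ (fun j : Fin n => ‖∑ l ∈ range n,
      (if κ l ≤ κ j then w l else 0)‖ ^ 2)
    rw [← h2]
    refine Finset.sum_congr rfl fun k _ => ?_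
    rw [hF k]
  have hle : cost π ≤ cost (τ.trans π) := hπ _ (Finset.mem_univ _)
  have hP : ∑ j ∈ range n, ‖∑ i ∈ range (j + 1), ε i • w i‖ ^ 2 ≤ 4 * d * n := by
    have := hsum
    simp only [one_mul, Finset.sum_const, Finset.card_range, nsmul_eq_mul, mul_one] at this
    exact this
  rw [hcost', ] at hle
  have hmain' : ∑ j ∈ range n, ‖∑ l ∈ range n, (if κ l ≤ κ j then w l else 0)‖ ^ 2
      ≤ 1 / 2 * ∑ j ∈ range n, ‖∑ i ∈ range (j + 1), w i‖ ^ 2
        + 1 / 2 * ∑ j ∈ range n, ‖∑ i ∈ range (j + 1), ε i • w i‖ ^ 2 := hmain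
  change cost π ≤ _
  rw [hcost] at hle ⊢
  linarith

end Vale.Agent.P262.Weighted
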