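import Vale.Agent.P262.FBCor
import Vale.Agent.P262.WeightedMore

open MeasureTheory ProbabilityTheory Set Finset
open scoped InnerProductSpace
open Vale.Agent.P262.Weighted (sg sg_pattern)

namespace Vale.Agent.P262.FB

/-- Finite linear programming duality, in the form used below. -/
lemma exists_simplex_of_dual {ι J : Type*} [Fintype ι] [Fintype J] (a : ι → J → ℝ) (b : J → ℝ)
    (h : ∀ p : J → ℝ, (∀ j, 0 ≤ p j) → ∃ i, ∑ j, p j * a i j ≤ ∑ j, p j * b j) :
    ∃ w ∈ stdSimplex ℝ ι, ∀ j, ∑ i, w i * a i j ≤ b j := by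
  classical
  let T : (ι → ℝ) →ₗ[ℝ] (J → ℝ) :=
    { toFun := fun w j => ∑ i, w i * a i j
      map_add' := by
        intro x y
        funext j
        simp only [Pi.add_apply, add_mul, Finset.sum_add_distrib]
      map_smul' := by
        intro c x
        funext j
        simp only [Pi.smul_apply, smul_eq_mul, RingHom.id_apply, Finset.mul_sum, mul_assoc] }
  let s : Set (J → ℝ) := T '' stdSimplex ℝ ι
  let C : Set (J → ℝ) := {z | ∀ j, z j ≤ b j}
  have hs1 : Convex ℝ s := (convex_stdSimplex ℝ ι).linear_image T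
  have hs2 : IsCompact s := (isCompact_stdSimplex ℝ ι).image T.continuous_of_finiteDimensional
  have hC1 : Convex ℝ C := by
    intro p hp q hq x y hx hy hxy j
    have h1 := hp j
    have h2 := hq j
    simp only [Pi.add_apply, Pi.smul_apply, smul_eq_mul]
    calc x * p j + y * q j ≤ x * b j + y * b j := by
          apply add_le_add
          · exact mul_le_mul_of_nonneg_left h1 hx
          · exact mul_le_mul_of_nonneg_left h2 hy
      _ = b j := by rw [← add_mul, hxy, one_mul]
  have hC2 : IsClosed C := by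
    have : C = ⋂ j, {z : J → ℝ | z j ≤ b j} := by
      ext z
      simp [C]
    rw [this]
    exact isClosed_iInter fun j => isClosed_le (continuous_apply j) continuous_const
  have hnd : ¬ Disjoint s C := by
    intro hdis
    obtain ⟨f, u, u', hfs, huu', hfC⟩ := geometric_hahn_banach_compact_closed hs1 hs2 hC1 hC2 hdis
    let c : J → ℝ := fun t => f (fun j => if t = j then 1 else 0)
    have hf : ∀ z : J → ℝ, f z = ∑ t, z t * c t := by
      intro z
      have := LinearMap.pi_apply_eq_sum_univ (f : (J → ℝ) →ₗ[ℝ] ℝ) z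
      simpa [c] using this
    have hb : b ∈ C := fun t => le_refl _
    have hcneg : ∀ t, c t ≤ 0 := by
      intro t
      by_contra hcon
      push Not at hcon
      let R : ℝ := (f b - u') / c t
      have hR : 0 ≤ R := div_nonneg (by linarith [hfC b hb]) hcon.le
      let z : J → ℝ := fun j => b j - if t = j then R else 0
      have hz : z ∈ C := by
        intro j
        simp only [z]
        split_ifs <;> linarith
      have hfz : f z = f b - R * c t := by
        rw [hf, hf]
        have : ∀ j, z j * c j = b j * c j - (if t = j then R * c t else 0) := by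
          intro j
          simp only [z]
          split_ifs with h
          · subst h; ring
          · ring
        simp only [this]
        rw [Finset.sum_sub_distrib]
        simp
      have h2 := hfC z hz
      have h3 : R * c t = f b - u' := by
        simp only [R]
        field_simp
      rw [hfz, h3] at h2
      linarith
    obtain ⟨i, hi⟩ := h (fun j => - c j) (fun j => by linarith [hcneg j])
    have hmem : a i ∈ s := by
      refine ⟨fun B => if B = i then 1 else 0, ⟨?_, ?_⟩, ?_⟩
      · intro B
        dsimp only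
        split_ifs <;> norm_num
      · dsimp only
        rw [Finset.sum_ite_eq' Finset.univ i (fun _ => (1 : ℝ))]
        simp
      · funext j
        change ∑ B, (if B = i then (1 : ℝ) else 0) * a B j = a i j
        rw [Finset.sum_eq_single i]
        · simp
        · intro B _ hB
          simp [hB]
        · simp
    have h1 := hfs _ hmem
    have h2 := hfC b hb
    rw [hf] at h1 h2
    have h3 : ∑ j, -c j * a i j = - ∑ t, a i t * c t := by
      rw [← Finset.sum_neg_distrib]
      refine Finset.sum_congr rfl fun j _ => ?_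
      ring
    have h4 : ∑ j, -c j * b j = - ∑ t, b t * c t := by
      rw [← Finset.sum_neg_distrib]
      refine Finset.sum_congr rfl fun j _ => ?_
      ring
    rw [h3, h4] at hi
    linarith
  rw [Set.not_disjoint_iff] at hnd
  obtain ⟨z, ⟨w, hw, rfl⟩, hzC⟩ := hnd
  exact ⟨w, hw, hzC⟩

variable {E : Type*} [NormedAddCommGroup E] [InnerProductSpace ℝ E] [FiniteDimensional ℝ E]
  [MeasurableSpace E] [BorelSpace E]

lemma Adm.sum {J : Type*} (s : Finset J) (g : J → E → ℝ) (hg : ∀ j ∈ s, Adm (g j)) :
    Adm (fun x => ∑ j ∈ s, g j x) := by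
  classical
  induction s using Finset.induction_on with
  | empty => simpa using Adm.zero
  | insert a s ha ih =>
    simp only [Finset.sum_insert ha]
    exact (hg a (Finset.mem_insert_self _ _)).add
      (ih fun j hj => hg j (Finset.mem_insert_of_mem hj))

/-- Many test functions attached to arbitrary prefixes. -/
theorem fb_finite {J : Type*} [Fintype J] (u : ℕ → E) (hu : ∀ i, ‖u i‖ ≤ 3 / 10) (N : ℕ)
    (τ : J → ℕ) (hτ : ∀ j, τ j < N) (g : J → E → ℝ) (hg : ∀ j, Adm (g j)) (p : J → ℝ)
    (hp : ∀ j, 0 ≤ p j) :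
    ∃ ε : ℕ → ℝ, (∀ i, ε i = 1 ∨ ε i = -1) ∧
      ∑ j, p j * g j (∑ i ∈ range (τ j + 1), ε i • u i) ≤
        ∑ j, p j * ∫ x, g j x ∂(stdGaussian E) := by
  classical
  let G : ℕ → E → ℝ := fun t x => ∑ j ∈ Finset.univ.filter (fun j => τ j = t), p j * g j x
  have hG : ∀ t, Adm (G t) := fun t =>
    Adm.sum _ _ (fun j _ => (hg j).smul (hp j))
  obtain ⟨ε, hε, hsum⟩ := fb_main u G hu hG N
  refine ⟨ε, hε, ?_⟩
  have hmaps : ∀ j ∈ (Finset.univ : Finset J), τ j ∈ range N :=
    fun j _ => Finset.mem_range.mpr (hτ j)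
  have h1 : ∑ t ∈ range N, G t (∑ i ∈ range (t + 1), ε i • u i)
      = ∑ j, p j * g j (∑ i ∈ range (τ j + 1), ε i • u i) := by
    rw [← Finset.sum_fiberwise_of_maps_to hmaps]
    refine Finset.sum_congr rfl fun t _ => ?_
    refine Finset.sum_congr rfl fun j hj => ?_
    rw [(Finset.mem_filter.mp hj).2]
  have h2 : ∑ t ∈ range N, ∫ x, G t x ∂(stdGaussian E)
      = ∑ j, p j * ∫ x, g j x ∂(stdGaussian E) := by
    rw [← Finset.sum_fiberwise_of_maps_to hmaps]
    refine Finset.sum_congr rfl fun t _ => ?_
    simp only [G]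
    rw [integral_finset_sum _ (fun j _ => ((hg j).smul (hp j)).integrable)]
    refine Finset.sum_congr rfl fun j _ => ?_
    rw [integral_const_mul]
  rw [h1, h2] at hsum
  exact hsum

/-- **Convex order domination at every prefix, by one distribution on signings.** -/
theorem convex_order (u : ℕ → E) (hu : ∀ i, ‖u i‖ ≤ 3 / 10) (N : ℕ) :
    ∃ w : Finset ℕ → ℝ, (∀ A, 0 ≤ w A) ∧ ∑ A ∈ (range N).powerset, w A = 1 ∧
      ∀ t < N, ∀ g : E → ℝ, Adm g →
        ∑ A ∈ (range N).powerset, w A * g (∑ i ∈ range (t + 1), sg A i • u i)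
          ≤ ∫ x, g x ∂(stdGaussian E) := by
  classical
  let ι := ↥((range N).powerset)
  let I := {q : ℕ × (E → ℝ) // q.1 < N ∧ Adm q.2}
  let P : ι → ℕ → E := fun A t => ∑ i ∈ range (t + 1), sg (A : Finset ℕ) i • u i
  let c : I → Set (ι → ℝ) := fun q => {w | ∑ A, w A * q.1.2 (P A q.1.1) ≤ ∫ x, q.1.2 x ∂(stdGaussian E)}
  have hclosed : ∀ q, IsClosed (c q) := by
    intro q
    refine isClosed_le ?_ continuous_const
    exact continuous_finset_sum _ fun A _ => (continuous_apply A).mul continuous_const
  have hfin : ∀ s : Finset I, (stdSimplex ℝ ι ∩ ⋂ q ∈ s, c q).Nonempty := by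
    intro s
    obtain ⟨w, hw, hwj⟩ := exists_simplex_of_dual (ι := ι) (J := ↥s)
      (fun A j => j.1.1.2 (P A j.1.1.1)) (fun j => ∫ x, j.1.1.2 x ∂(stdGaussian E)) (by
        intro p hp
        obtain ⟨ε, hε, hsum⟩ := fb_finite (J := ↥s) u hu N (fun j => j.1.1.1) (fun j => j.1.2.1)
          (fun j => j.1.1.2) (fun j => j.1.2.2) p hp
        obtain ⟨A, hA, hAε⟩ := sg_pattern ε hε N
        refine ⟨⟨A, hA⟩, ?_⟩
        refine le_trans (le_of_eq ?_) hsum
        refine Finset.sum_congr rfl fun j _ => ?_
        have hPeq : P ⟨A, hA⟩ j.1.1.1 = ∑ i ∈ range (j.1.1.1 + 1), ε i • u i := by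
          refine Finset.sum_congr rfl fun i hi => ?_
          have hi' : i < N := by
            have h1 := Finset.mem_range.mp hi
            have h2 := j.1.2.1
            omega
          rw [hAε i hi']
        rw [hPeq])
    refine ⟨w, hw, ?_⟩
    simp only [Set.mem_iInter]
    intro q hq
    exact hwj ⟨q, hq⟩
  obtain ⟨w, hw, hwc⟩ := (isCompact_stdSimplex ℝ ι).inter_iInter_nonempty c hclosed hfin
  simp only [Set.mem_iInter] at hwc
  refine ⟨fun A => if h : A ∈ (range N).powerset then w ⟨A, h⟩ else 0, ?_, ?_, ?_⟩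
  · intro A
    by_cases h : A ∈ (range N).powerset
    · simp only [h, dif_pos]
      exact hw.1 _
    · simp [h]
  · rw [← Finset.sum_coe_sort (range N).powerset]
    have := hw.2
    refine Eq.trans ?_ this
    refine Finset.sum_congr rfl fun A _ => ?_
    simp
  · intro t ht g hg
    have h1 := hwc ⟨(t, g), ht, hg⟩
    refine le_trans (le_of_eq ?_) h1
    rw [← Finset.sum_coe_sort (range N).powerset]
    refine Finset.sum_congr rfl fun A _ => ?_
    simp [P]

end Vale.Agent.P262.FB
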