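import Vale.Agent.P262.FBCor

open MeasureTheory ProbabilityTheory Set Finset
open scoped InnerProductSpace

namespace Vale.Agent.P262.FB

variable {E : Type*} [NormedAddCommGroup E] [InnerProductSpace ℝ E]

/-- The key rearrangement inequality for a prefix signing, for a general even midpoint convex cost. -/
lemma rearrG (G : E → ℝ) (hG : ∀ a b, G ((1 / 2 : ℝ) • (a + b)) ≤ 1 / 2 * G a + 1 / 2 * G b)
    (hev : ∀ x, G (-x) = G x)
    (n : ℕ) (w : ℕ → E) (ε : ℕ → ℝ) (hε : ∀ i, ε i = 1 ∨ ε i = -1)
    (h0 : ∑ i ∈ range n, w i = 0) :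
    ∑ j ∈ range n, G (∑ l ∈ range n, (if (if ε l = 1 then l else 2 * n - l) ≤
        (if ε j = 1 then j else 2 * n - j) then w l else 0))
      ≤ 1 / 2 * ∑ j ∈ range n, G (∑ i ∈ range (j + 1), w i)
        + 1 / 2 * ∑ j ∈ range n, G (∑ i ∈ range (j + 1), ε i • w i) := by
  classical
  set κ : ℕ → ℕ := fun l => if ε l = 1 then l else 2 * n - l with hκ
  let S : ℕ → E := fun j => ∑ i ∈ range (j + 1), w i
  let P : ℕ → E := fun j => ∑ i ∈ range (j + 1), ε i • w i
  let T : ℕ → E := fun j => ∑ i ∈ range j, ((1 - ε i) / 2) • w i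
  have hzero : ∀ x, G 0 ≤ G x := by
    intro x
    have h := hG x (-x)
    rw [add_neg_cancel, smul_zero, hev] at h
    linarith
  have hT : ∀ j, T (j + 1) = (1 / 2 : ℝ) • (S j + (- P j)) := by
    intro j
    simp only [T, S, P]
    rw [← Finset.sum_neg_distrib, ← Finset.sum_add_distrib, Finset.smul_sum]
    refine Finset.sum_congr rfl fun i _ => ?_
    rw [← neg_smul, ← one_smul ℝ (w i), smul_smul, smul_smul, mul_one, ← add_smul, smul_smul]
    congr 1
    ring
  have hplus : ∀ j < n, ε j = 1 →
      ∑ l ∈ range n, (if κ l ≤ κ j then w l else 0) = (1 / 2 : ℝ) • (S j + P j) := by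
    intro j hj hεj
    have hκj : κ j = j := by simp [hκ, hεj]
    have hsub : range (j + 1) ⊆ range n := by
      intro i hi
      have := Finset.mem_range.mp hi
      exact Finset.mem_range.mpr (by omega)
    rw [← Finset.sum_subset hsub]
    · simp only [S, P]
      rw [← Finset.sum_add_distrib, Finset.smul_sum]
      refine Finset.sum_congr rfl fun l hl => ?_
      have hl' := Finset.mem_range.mp hl
      rcases hε l with h | h
      · have : κ l ≤ κ j := by simp only [hκ, h, hεj, if_true]; omega
        rw [if_pos this, h, one_smul, ← two_smul ℝ (w l), smul_smul]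
        norm_num
      · have hne : ε l ≠ 1 := by rw [h]; norm_num
        have : ¬ κ l ≤ κ j := by simp only [hκ, hne, hεj, if_true, if_false]; omega
        rw [if_neg this, h]
        simp
    · intro l hl hl'
      have hln := Finset.mem_range.mp hl
      have hlj : j + 1 ≤ l := by
        by_contra hc
        exact hl' (Finset.mem_range.mpr (by omega))
      have : ¬ κ l ≤ κ j := by
        simp only [hκ, hεj, if_true]
        split_ifs <;> omega
      rw [if_neg this]
  have hminus : ∀ j < n, ε j ≠ 1 →
      ∑ l ∈ range n, (if κ l ≤ κ j then w l else 0) = - T j := by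
    intro j hj hεj
    have hκj : κ j = 2 * n - j := by simp [hκ, hεj]
    have hT' : T j = ∑ l ∈ range n, if l < j then ((1 - ε l) / 2) • w l else 0 := by
      have hsub : range j ⊆ range n := by
        intro i hi
        have := Finset.mem_range.mp hi
        exact Finset.mem_range.mpr (by omega)
      simp only [T]
      rw [← Finset.sum_subset hsub]
      · refine Finset.sum_congr rfl fun l hl => ?_
        rw [if_pos (Finset.mem_range.mp hl)]
      · intro l _ hl'
        have : ¬ l < j := fun hc => hl' (Finset.mem_range.mpr hc)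
        rw [if_neg this]
    have hsum : ∑ l ∈ range n, (if κ l ≤ κ j then w l else 0)
        = ∑ l ∈ range n, (w l - if l < j then ((1 - ε l) / 2) • w l else 0) := by
      refine Finset.sum_congr rfl fun l hl => ?_
      have hln := Finset.mem_range.mp hl
      rcases hε l with h | h
      · have : κ l ≤ κ j := by simp only [hκ, h, hεj, if_true, if_false]; omega
        rw [if_pos this]
        by_cases hlj : l < j
        · rw [if_pos hlj, h]
          simp
        · rw [if_neg hlj, sub_zero]
      · have hne : ε l ≠ 1 := by rw [h]; norm_num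
        by_cases hlj : l < j
        · have : ¬ κ l ≤ κ j := by simp only [hκ, hne, hεj, if_false]; omega
          rw [if_neg this, if_pos hlj, h]
          norm_num
        · have : κ l ≤ κ j := by simp only [hκ, hne, hεj, if_false]; omega
          rw [if_pos this, if_neg hlj, sub_zero]
    rw [hsum, Finset.sum_sub_distrib, h0, ← hT', zero_sub]
  -- the telescoping bound on the minus part
  have htele : ∑ j ∈ range n, (if ε j = 1 then (0 : ℝ) else G (T j))
      ≤ ∑ j ∈ range n, (if ε j = 1 then (0 : ℝ) else G (T (j + 1))) := by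
    have h1 : ∑ j ∈ range n, (G (T (j + 1)) - G (T j)) = G (T n) - G (T 0) :=
      Finset.sum_range_sub (fun j => G (T j)) n
    have h2 : T 0 = 0 := by simp [T]
    rw [h2] at h1
    have h3 : ∑ j ∈ range n, (if ε j = 1 then (0 : ℝ) else G (T (j + 1)))
        - ∑ j ∈ range n, (if ε j = 1 then (0 : ℝ) else G (T j))
        = ∑ j ∈ range n, (G (T (j + 1)) - G (T j)) := by
      rw [← Finset.sum_sub_distrib]
      refine Finset.sum_congr rfl fun j _ => ?_
      by_cases h : ε j = 1
      · have : T (j + 1) = T j := by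
          simp only [T]
          rw [Finset.sum_range_succ, h]
          simp
        simp [h, this]
      · simp [h]
    have h4 := hzero (T n)
    rw [h1] at h3
    linarith
  -- assemble
  have hsplit : ∑ j ∈ range n, G (∑ l ∈ range n, (if κ l ≤ κ j then w l else 0))
      = ∑ j ∈ range n, (if ε j = 1 then G ((1 / 2 : ℝ) • (S j + P j)) else 0)
        + ∑ j ∈ range n, (if ε j = 1 then (0 : ℝ) else G (T j)) := by
    rw [← Finset.sum_add_distrib]
    refine Finset.sum_congr rfl fun j hj => ?_
    have hj' := Finset.mem_range.mp hj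
    by_cases h : ε j = 1
    · rw [hplus j hj' h]
      simp [h]
    · rw [hminus j hj' h, hev]
      simp [h]
  calc ∑ j ∈ range n, G (∑ l ∈ range n, (if κ l ≤ κ j then w l else 0))
      = ∑ j ∈ range n, (if ε j = 1 then G ((1 / 2 : ℝ) • (S j + P j)) else 0)
        + ∑ j ∈ range n, (if ε j = 1 then (0 : ℝ) else G (T j)) := hsplit
    _ ≤ ∑ j ∈ range n, (if ε j = 1 then G ((1 / 2 : ℝ) • (S j + P j)) else 0)
        + ∑ j ∈ range n, (if ε j = 1 then (0 : ℝ) else G (T (j + 1))) := by linarith
    _ = ∑ j ∈ range n, (if ε j = 1 then G ((1 / 2 : ℝ) • (S j + P j))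
          else G ((1 / 2 : ℝ) • (S j + (- P j)))) := by
        rw [← Finset.sum_add_distrib]
        refine Finset.sum_congr rfl fun j _ => ?_
        by_cases h : ε j = 1
        · simp [h]
        · simp [h, hT]
    _ ≤ ∑ j ∈ range n, (1 / 2 * G (S j) + 1 / 2 * G (P j)) := by
        refine Finset.sum_le_sum fun j _ => ?_
        by_cases h : ε j = 1
        · rw [if_pos h]
          exact hG _ _
        · rw [if_neg h]
          have := hG (S j) (- P j)
          rwa [hev] at this
    _ = 1 / 2 * ∑ j ∈ range n, G (∑ i ∈ range (j + 1), w i)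
        + 1 / 2 * ∑ j ∈ range n, G (∑ i ∈ range (j + 1), ε i • w i) := by
        rw [Finset.mul_sum, Finset.mul_sum, ← Finset.sum_add_distrib]

/-- **Transfer from signings to orderings.**  If every sequence in a set `B` admits a signing with
total prefix cost at most `C`, then every zero-sum family in `B` has an ordering with total
partial-sum cost at most `C`. -/
theorem order_of_sign (G : E → ℝ) (hG : ∀ a b, G ((1 / 2 : ℝ) • (a + b)) ≤ 1 / 2 * G a + 1 / 2 * G b)
    (hev : ∀ x, G (-x) = G x) (B : Set E) (hB0 : (0 : E) ∈ B) (C : ℝ)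
    {n : ℕ}
    (hsign : ∀ w : ℕ → E, (∀ i, w i ∈ B) → ∃ ε : ℕ → ℝ, (∀ i, ε i = 1 ∨ ε i = -1) ∧
      ∑ j ∈ range n, G (∑ i ∈ range (j + 1), ε i • w i) ≤ C)
    (v : Fin n → E) (hv : ∀ i, v i ∈ B) (h0 : ∑ i, v i = 0) :
    ∃ π : Equiv.Perm (Fin n), ∑ k : Fin n, G (∑ i ∈ Finset.Iic k, v (π i)) ≤ C := by
  classical
  let cost : Equiv.Perm (Fin n) → ℝ := fun π => ∑ k : Fin n, G (∑ i ∈ Finset.Iic k, v (π i))
  obtain ⟨π, -, hπ⟩ := Finset.exists_min_image (Finset.univ : Finset (Equiv.Perm (Fin n))) cost
    ⟨1, Finset.mem_univ _⟩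
  refine ⟨π, ?_⟩
  let w : ℕ → E := fun t => if h : t < n then v (π ⟨t, h⟩) else 0
  have hwF : ∀ l : Fin n, w l = v (π l) := by
    intro l
    simp [w, l.2]
  have hw : ∀ t, w t ∈ B := by
    intro t
    by_cases h : t < n
    · simp only [w, h, dif_pos]
      exact hv _
    · simpa [w, h] using hB0
  have hw0 : ∑ i ∈ range n, w i = 0 := by
    rw [Finset.sum_range]
    simp only [hwF]
    rw [Equiv.sum_comp π v, h0]
  obtain ⟨ε, hε, hsum⟩ := hsign w hw
  have hmain := rearrG G hG hev n w ε hε hw0
  -- partial sums of the order `π`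
  have hpref : ∀ (f : ℕ → E) (k : Fin n),
      ∑ i ∈ Finset.Iic k, f (i : ℕ) = ∑ i ∈ range ((k : ℕ) + 1), f i := by
    intro f k
    refine Finset.sum_bij (fun i _ => (i : ℕ)) ?_ ?_ ?_ ?_
    · intro i hi
      have : i ≤ k := Finset.mem_Iic.mp hi
      exact Finset.mem_range.mpr (Nat.lt_succ_of_le this)
    · intro a _ b _ hab
      exact Fin.ext hab
    · intro b hb
      have hb' := Nat.le_of_lt_succ (Finset.mem_range.mp hb)
      have hbn : b < n := lt_of_le_of_lt hb' k.2
      exact ⟨⟨b, hbn⟩, Finset.mem_Iic.mpr hb', rfl⟩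
    · intro _ _
      rfl
  have hcost : cost π = ∑ j ∈ range n, G (∑ i ∈ range (j + 1), w i) := by
    rw [Finset.sum_range]
    refine Finset.sum_congr rfl fun k _ => ?_
    rw [← hpref w k]
    simp only [hwF]
  -- the new order
  let κ : ℕ → ℕ := fun l => if ε l = 1 then l else 2 * n - l
  let κF : Fin n → ℕ := fun l => κ l
  have hκinj : Function.Injective κF := by
    intro a b hab
    have ha := a.2
    have hb := b.2
    apply Fin.ext
    simp only [κF, κ] at hab
    split_ifs at hab <;> omega
  let τ : Equiv.Perm (Fin n) := Tuple.sort κF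
  have hmono : Monotone (κF ∘ τ) := Tuple.monotone_sort κF
  have hiff : ∀ i k : Fin n, i ≤ k ↔ κF (τ i) ≤ κF (τ k) := by
    intro i k
    constructor
    · intro h
      exact hmono h
    · intro h
      by_contra hc
      have hki : k ≤ i := le_of_lt (not_le.mp hc)
      have h2 : κF (τ k) ≤ κF (τ i) := hmono hki
      have h3 : κF (τ k) = κF (τ i) := le_antisymm h2 h
      have h4 := τ.injective (hκinj h3)
      exact hc (h4 ▸ le_refl _)
  have hcost' : cost (τ.trans π) = ∑ j ∈ range n, G (∑ l ∈ range n,
      (if κ l ≤ κ j then w l else 0)) := by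
    rw [Finset.sum_range]
    have hF : ∀ k : Fin n, ∑ i ∈ Finset.Iic k, v ((τ.trans π) i)
        = ∑ l ∈ range n, (if κ l ≤ κ (τ k) then w l else 0) := by
      intro k
      rw [Finset.sum_range]
      rw [← Finset.sum_filter]
      refine Finset.sum_equiv τ ?_ ?_
      · intro i
        rw [Finset.mem_Iic, Finset.mem_filter]
        simp only [Finset.mem_univ, true_and]
        exact hiff i k
      · intro i _
        rw [hwF]
        rfl
    have h2 := Equiv.sum_comp τ (fun j : Fin n => G (∑ l ∈ range n,
      (if κ l ≤ κ j then w l else 0)))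
    rw [← h2]
    refine Finset.sum_congr rfl fun k _ => ?_
    rw [hF k]
  have hle : cost π ≤ cost (τ.trans π) := hπ _ (Finset.mem_univ _)
  rw [hcost'] at hle
  have hmain' : ∑ j ∈ range n, G (∑ l ∈ range n, (if κ l ≤ κ j then w l else 0))
      ≤ 1 / 2 * ∑ j ∈ range n, G (∑ i ∈ range (j + 1), w i)
        + 1 / 2 * ∑ j ∈ range n, G (∑ i ∈ range (j + 1), ε i • w i) := hmain
  change cost π ≤ _
  rw [hcost] at hle ⊢
  linarith

end Vale.Agent.P262.FB
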