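import Vale.Agent.P262.FBDist
import Vale.Agent.P262.FBOrder

open MeasureTheory ProbabilityTheory Set Finset
open scoped InnerProductSpace
open Vale.Agent.P262.Weighted (sg)

namespace Vale.Agent.P262.FB

variable {d : ℕ}

/-- Scaling: the exponential test function at scale `3/10`. -/
lemma scale_exp (x : Eu d) : Real.exp (‖(3 / 10 : ℝ) • x‖ ^ 2 / 4) = Real.exp (9 / 400 * ‖x‖ ^ 2) := by
  congr 1
  rw [norm_smul, mul_pow, Real.norm_eq_abs, sq_abs]
  ring

lemma small_of_unit {v : Eu d} (hv : ‖v‖ ≤ 1) : ‖(3 / 10 : ℝ) • v‖ ≤ 3 / 10 := by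
  rw [norm_smul, Real.norm_eq_abs, abs_of_pos (by norm_num : (0 : ℝ) < 3 / 10)]
  nlinarith [norm_nonneg v]

/-- Exponential moment at the unit-ball scale with arbitrary nonnegative weights. -/
theorem exp_weighted (v : ℕ → Eu d) (p : ℕ → ℝ) (hv : ∀ i, ‖v i‖ ≤ 1) (hp : ∀ t, 0 ≤ p t) (N : ℕ) :
    ∃ ε : ℕ → ℝ, (∀ i, ε i = 1 ∨ ε i = -1) ∧
      ∑ t ∈ range N, p t * Real.exp (9 / 400 * ‖∑ i ∈ range (t + 1), ε i • v i‖ ^ 2)
        ≤ √2 ^ d * ∑ t ∈ range N, p t := by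
  obtain ⟨ε, hε, hsum⟩ := fb_main (fun i => (3 / 10 : ℝ) • v i)
    (fun t x => p t * Real.exp (‖x‖ ^ 2 / 4)) (fun i => small_of_unit (hv i))
    (fun t => (exp_adm d).smul (hp t)) N
  refine ⟨ε, hε, ?_⟩
  have h1 : ∀ t, (∑ i ∈ range (t + 1), ε i • (3 / 10 : ℝ) • v i)
      = (3 / 10 : ℝ) • ∑ i ∈ range (t + 1), ε i • v i := by
    intro t
    rw [Finset.smul_sum]
    refine Finset.sum_congr rfl fun i _ => ?_
    rw [smul_comm]
  simp only [h1, scale_exp] at hsum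
  refine hsum.trans (le_of_eq ?_)
  rw [Finset.mul_sum]
  refine Finset.sum_congr rfl fun t _ => ?_
  rw [integral_const_mul, exp_norm_integral]
  ring

/-- From an exponential sum bound to a count of the large terms. -/
lemma count_le (f : ℕ → ℝ) (N : ℕ) (C : ℝ) (h : ∑ t ∈ range N, Real.exp (9 / 400 * f t ^ 2) ≤ C)
    (R : ℝ) (hR : 0 ≤ R) :
    (((range N).filter (fun t => R < f t)).card : ℝ) * Real.exp (9 / 400 * R ^ 2) ≤ C := by
  classical
  refine le_trans ?_ h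
  calc (((range N).filter (fun t => R < f t)).card : ℝ) * Real.exp (9 / 400 * R ^ 2)
      = ∑ t ∈ (range N).filter (fun t => R < f t), Real.exp (9 / 400 * R ^ 2) := by
        rw [Finset.sum_const, nsmul_eq_mul]
    _ ≤ ∑ t ∈ (range N).filter (fun t => R < f t), Real.exp (9 / 400 * f t ^ 2) := by
        refine Finset.sum_le_sum fun t ht => ?_
        have hlt := (Finset.mem_filter.mp ht).2
        apply Real.exp_le_exp.mpr
        have : R ^ 2 ≤ f t ^ 2 := pow_le_pow_left₀ hR hlt.le 2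
        linarith
    _ ≤ ∑ t ∈ range N, Real.exp (9 / 400 * f t ^ 2) := by
        refine Finset.sum_le_sum_of_subset_of_nonneg (Finset.filter_subset _ _) ?_
        intro t _ _
        exact (Real.exp_pos _).le

lemma log_sq_le (x C : ℝ) (M : ℕ) (h : Real.exp x ≤ √2 ^ d * M) (hM : 0 < M) :
    x ≤ d * Real.log √2 + Real.log M := by
  have hM' : (0 : ℝ) < M := by exact_mod_cast hM
  have h2 : (0 : ℝ) < √2 := Real.sqrt_pos.mpr (by norm_num)
  have h3 : (0 : ℝ) < √2 ^ d := pow_pos h2 d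
  have := Real.log_le_log (Real.exp_pos x) h
  rw [Real.log_exp, Real.log_mul h3.ne' hM'.ne', Real.log_pow] at this
  exact this

/-- The number of terms bound and the maximal bound for unit-ball sequences. -/
theorem exp_tail (v : ℕ → Eu d) (hv : ∀ i, ‖v i‖ ≤ 1) (N : ℕ) :
    ∃ ε : ℕ → ℝ, (∀ i, ε i = 1 ∨ ε i = -1) ∧
      (∑ t ∈ range N, Real.exp (9 / 400 * ‖∑ i ∈ range (t + 1), ε i • v i‖ ^ 2) ≤ √2 ^ d * N) ∧
      (∀ R : ℝ, 0 ≤ R →
        (((range N).filter (fun t => R < ‖∑ i ∈ range (t + 1), ε i • v i‖)).card : ℝ)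
          * Real.exp (9 / 400 * R ^ 2) ≤ √2 ^ d * N) ∧
      (∀ t < N, 9 / 400 * ‖∑ i ∈ range (t + 1), ε i • v i‖ ^ 2 ≤ d * Real.log √2 + Real.log N) := by
  obtain ⟨ε, hε, hsum⟩ := exp_weighted v (fun _ => 1) hv (fun _ => zero_le_one) N
  simp only [one_mul, Finset.sum_const, Finset.card_range, nsmul_eq_mul, mul_one] at hsum
  refine ⟨ε, hε, hsum, fun R hR => count_le _ N _ hsum R hR, fun t ht => ?_⟩
  have h1 : Real.exp (9 / 400 * ‖∑ i ∈ range (t + 1), ε i • v i‖ ^ 2) ≤ √2 ^ d * N := by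
    refine le_trans ?_ hsum
    exact Finset.single_le_sum (f := fun t => Real.exp (9 / 400 * ‖∑ i ∈ range (t + 1), ε i • v i‖ ^ 2))
      (fun t _ => (Real.exp_pos _).le) (Finset.mem_range.mpr ht)
  exact log_sq_le _ 0 N h1 (by omega)

/-- Only the tested prefixes count: the bound involves the number of tested prefixes, not the length
of the sequence. -/
theorem tested_prefixes (v : ℕ → Eu d) (hv : ∀ i, ‖v i‖ ≤ 1) (S : Finset ℕ) (hS : S.Nonempty) :
    ∃ ε : ℕ → ℝ, (∀ i, ε i = 1 ∨ ε i = -1) ∧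
      ∀ t ∈ S, 9 / 400 * ‖∑ i ∈ range (t + 1), ε i • v i‖ ^ 2 ≤ d * Real.log √2 + Real.log S.card := by
  classical
  let N := S.sup id + 1
  have hSN : S ⊆ range N := by
    intro t ht
    have : t ≤ S.sup id := Finset.le_sup (f := id) ht
    exact Finset.mem_range.mpr (Nat.lt_succ_of_le this)
  obtain ⟨ε, hε, hsum⟩ := exp_weighted v (fun t => if t ∈ S then 1 else 0) hv
    (fun t => by split_ifs <;> norm_num) N
  refine ⟨ε, hε, fun t ht => ?_⟩
  have h0 : ∑ t ∈ range N, (if t ∈ S then (1 : ℝ) else 0) = S.card := by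
    rw [Finset.sum_ite_mem, Finset.inter_eq_right.mpr hSN]
    simp
  rw [h0] at hsum
  have h1 : Real.exp (9 / 400 * ‖∑ i ∈ range (t + 1), ε i • v i‖ ^ 2) ≤ √2 ^ d * S.card := by
    refine le_trans ?_ hsum
    have := Finset.single_le_sum
      (f := fun t => (if t ∈ S then (1 : ℝ) else 0) *
        Real.exp (9 / 400 * ‖∑ i ∈ range (t + 1), ε i • v i‖ ^ 2))
      (s := range N) (fun t _ => by
        refine mul_nonneg ?_ (Real.exp_pos _).le
        split_ifs <;> norm_num) (hSN ht)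
    simpa [ht] using this
  exact log_sq_le _ 0 S.card h1 (Finset.card_pos.mpr hS)

/-- Ordering form, for a general even admissible cost. -/
theorem order_functional {n : ℕ} (v : Fin n → Eu d) (G : Eu d → ℝ) (hv : ∀ i, ‖v i‖ ≤ 3 / 10)
    (h0 : ∑ i, v i = 0) (hG : Adm G) (hev : ∀ x, G (-x) = G x) :
    ∃ π : Equiv.Perm (Fin n), ∑ k : Fin n, G (∑ i ∈ Finset.Iic k, v (π i))
      ≤ n * ∫ x, G x ∂(stdGaussian (Eu d)) := by
  have hmid : ∀ a b, G ((1 / 2 : ℝ) • (a + b)) ≤ 1 / 2 * G a + 1 / 2 * G b := by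
    intro a b
    have := hG.convex.2 (Set.mem_univ a) (Set.mem_univ b) (by norm_num : (0 : ℝ) ≤ 1 / 2)
      (by norm_num : (0 : ℝ) ≤ 1 / 2) (by norm_num)
    simpa [smul_add, smul_eq_mul] using this
  refine order_of_sign G hmid hev {x | ‖x‖ ≤ 3 / 10} (by simp; norm_num) _ ?_ v hv h0
  intro w hw
  obtain ⟨ε, hε, hsum⟩ := fb_main w (fun _ => G) hw (fun _ => hG) n
  refine ⟨ε, hε, hsum.trans (le_of_eq ?_)⟩
  simp

/-- Ordering form at the unit-ball scale. -/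
theorem order_exp0 {n : ℕ} (v : Fin n → Eu d) (hv : ∀ i, ‖v i‖ ≤ 1) (h0 : ∑ i, v i = 0) :
    ∃ π : Equiv.Perm (Fin n), ∑ k : Fin n, Real.exp (9 / 400 * ‖∑ i ∈ Finset.Iic k, v (π i)‖ ^ 2)
      ≤ n * √2 ^ d := by
  obtain ⟨π, hπ⟩ := order_functional (fun i => (3 / 10 : ℝ) • v i)
    (fun x => Real.exp (‖x‖ ^ 2 / 4)) (fun i => small_of_unit (hv i))
    (by rw [← Finset.smul_sum, h0, smul_zero]) (exp_adm d) (by intro x; simp)
  refine ⟨π, ?_⟩
  rw [exp_norm_integral] at hπ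
  refine le_trans (le_of_eq ?_) hπ
  refine Finset.sum_congr rfl fun k _ => ?_
  rw [← Finset.smul_sum, scale_exp]

/-- Ordering form at the unit-ball scale, with its tail and maximal consequences. -/
theorem order_exp {n : ℕ} (v : Fin n → Eu d) (hv : ∀ i, ‖v i‖ ≤ 1) (h0 : ∑ i, v i = 0) :
    ∃ π : Equiv.Perm (Fin n),
      (∑ k : Fin n, Real.exp (9 / 400 * ‖∑ i ∈ Finset.Iic k, v (π i)‖ ^ 2) ≤ √2 ^ d * n) ∧
      (∀ R : ℝ, 0 ≤ R →
        ((Finset.univ.filter (fun k : Fin n => R < ‖∑ i ∈ Finset.Iic k, v (π i)‖)).card : ℝ)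
          * Real.exp (9 / 400 * R ^ 2) ≤ √2 ^ d * n) ∧
      (∀ k : Fin n, 9 / 400 * ‖∑ i ∈ Finset.Iic k, v (π i)‖ ^ 2 ≤ d * Real.log √2 + Real.log n) := by
  classical
  obtain ⟨π, hπ⟩ := order_exp0 v hv h0
  have hπ' : ∑ k : Fin n, Real.exp (9 / 400 * ‖∑ i ∈ Finset.Iic k, v (π i)‖ ^ 2) ≤ √2 ^ d * n := by
    rw [mul_comm]
    exact hπ
  refine ⟨π, hπ', fun R hR => ?_, fun k => ?_⟩
  · refine le_trans ?_ hπ'
    calc ((Finset.univ.filter (fun k : Fin n => R < ‖∑ i ∈ Finset.Iic k, v (π i)‖)).card : ℝ)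
          * Real.exp (9 / 400 * R ^ 2)
        = ∑ k ∈ Finset.univ.filter (fun k : Fin n => R < ‖∑ i ∈ Finset.Iic k, v (π i)‖),
            Real.exp (9 / 400 * R ^ 2) := by
          rw [Finset.sum_const, nsmul_eq_mul]
      _ ≤ ∑ k ∈ Finset.univ.filter (fun k : Fin n => R < ‖∑ i ∈ Finset.Iic k, v (π i)‖),
            Real.exp (9 / 400 * ‖∑ i ∈ Finset.Iic k, v (π i)‖ ^ 2) := by
          refine Finset.sum_le_sum fun k hk => ?_
          have hlt := (Finset.mem_filter.mp hk).2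
          apply Real.exp_le_exp.mpr
          have : R ^ 2 ≤ ‖∑ i ∈ Finset.Iic k, v (π i)‖ ^ 2 := pow_le_pow_left₀ hR hlt.le 2
          linarith
      _ ≤ ∑ k : Fin n, Real.exp (9 / 400 * ‖∑ i ∈ Finset.Iic k, v (π i)‖ ^ 2) := by
          refine Finset.sum_le_sum_of_subset_of_nonneg (Finset.filter_subset _ _) ?_
          intro t _ _
          exact (Real.exp_pos _).le
  · have h1 : Real.exp (9 / 400 * ‖∑ i ∈ Finset.Iic k, v (π i)‖ ^ 2) ≤ √2 ^ d * n := by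
      refine le_trans ?_ hπ'
      exact Finset.single_le_sum
        (f := fun k : Fin n => Real.exp (9 / 400 * ‖∑ i ∈ Finset.Iic k, v (π i)‖ ^ 2))
        (fun t _ => (Real.exp_pos _).le) (Finset.mem_univ k)
    exact log_sq_le _ 0 n h1 (lt_of_le_of_lt (Nat.zero_le _) k.2)

end Vale.Agent.P262.FB
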