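import Mathlib

open MeasureTheory ProbabilityTheory Set

namespace Vale.Agent.P262.FB

/-- Three point form of convexity on the line. -/
lemma cvx3 {φ : ℝ → ℝ} (hφ : ConvexOn ℝ univ φ) {x y z : ℝ} (hxy : x < y) (hyz : y < z) :
    φ y * (z - x) ≤ (z - y) * φ x + (y - x) * φ z := by
  have hzx : 0 < z - x := by linarith
  have hα : 0 ≤ (z - y) / (z - x) := div_nonneg (by linarith) hzx.le
  have hβ : 0 ≤ (y - x) / (z - x) := div_nonneg (by linarith) hzx.le
  have hαβ : (z - y) / (z - x) + (y - x) / (z - x) = 1 := by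
    field_simp
    ring
  have h := hφ.2 (mem_univ x) (mem_univ z) hα hβ hαβ
  have e : ((z - y) / (z - x)) • x + ((y - x) / (z - x)) • z = y := by
    simp only [smul_eq_mul]
    field_simp
    ring
  rw [e] at h
  simp only [smul_eq_mul] at h
  have h2 := mul_le_mul_of_nonneg_right h hzx.le
  have e2 : ((z - y) / (z - x) * φ x + (y - x) / (z - x) * φ z) * (z - x)
      = (z - y) * φ x + (y - x) * φ z := by
    field_simp
  rwa [e2] at h2

/-- The bowl inside the crossing is below the level. -/
lemma bowl_le {φ : ℝ → ℝ} (hφ : ConvexOn ℝ univ φ) {c d M q : ℝ} (hc : φ c = M) (hd : φ d = M)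
    (h1 : c ≤ q) (h2 : q ≤ d) : φ q ≤ M := by
  have hq : q ∈ segment ℝ c d := by
    rw [segment_eq_Icc (h1.trans h2)]
    exact ⟨h1, h2⟩
  have h := hφ.le_max_of_mem_segment (mem_univ c) (mem_univ d) hq
  rw [hc, hd, max_self] at h
  exact h

/-- Outside of the bowl the function is above the level. -/
lemma outer_ge {φ : ℝ → ℝ} (hφ : ConvexOn ℝ univ φ) {c d M q : ℝ} (hcd : c < d) (hc : φ c = M)
    (hd : φ d = M) (hq : d ≤ q) : M ≤ φ q := by
  rcases eq_or_lt_of_le hq with rfl | hq'
  · exact hd.ge
  · have h := cvx3 hφ hcd hq'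
    rw [hc, hd] at h
    have hpos : 0 < d - c := by linarith
    have h3 : M * (d - c) ≤ φ q * (d - c) := by nlinarith
    exact le_of_mul_le_mul_right h3 hpos

/-- The gain on the far right. -/
lemma right_gain {φ : ℝ → ℝ} (hφ : ConvexOn ℝ univ φ) {b a M q₀ q : ℝ} (ha : 0 < a)
    (hl : φ (b - a) = M) (hr : φ (b + a) = M) (hq₀ : b - a ≤ q₀) (hq₀' : q₀ ≤ b + a)
    (hmin : ∀ s, b - a ≤ s → s ≤ b + a → φ q₀ ≤ φ s) (hq : b + 2 * a ≤ q) :
    φ (q - a) ≤ φ q - (M - φ q₀) / 2 := by
  have hcd : b - a < b + a := by linarith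
  have hM : M ≤ φ q := outer_ge hφ hcd hl hr (by linarith)
  have hdepth : 0 ≤ M - φ q₀ := by
    have := hmin (b + a) hcd.le le_rfl
    rw [hr] at this
    linarith
  rcases eq_or_lt_of_le hdepth with h0 | hpos
  · -- flat bowl
    have h1 := cvx3 hφ (x := b - a) (y := q - a) (z := q) (by linarith) (by linarith)
    rw [hl] at h1
    have hW : 0 < q - (b - a) := by linarith
    have h2 : φ (q - a) * (q - (b - a)) ≤ φ q * (q - (b - a)) := by nlinarith
    have h3 := le_of_mul_le_mul_right h2 hW
    linarith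
  · have hq₀c : q₀ < b + a := by
      rcases eq_or_lt_of_le hq₀' with h | h
      · rw [h, hr] at hpos
        linarith
      · exact h
    set L := b + a - q₀ with hL
    set W := q - q₀ with hW
    have hLpos : 0 < L := by simp only [hL]; linarith
    have hL2 : L ≤ 2 * a := by simp only [hL]; linarith
    have hWpos : 0 < W := by simp only [hW]; linarith
    have h1 := cvx3 hφ hq₀c (show b + a < q by linarith)
    have h2 := cvx3 hφ (x := q₀) (y := q - a) (z := q) (by linarith) (by linarith)
    rw [hr] at h1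
    set Δ := φ q - φ q₀ with hΔ
    have e1 : (M - φ q₀) * W ≤ L * Δ := by
      simp only [hW, hL, hΔ] at *
      nlinarith
    have e2 : φ (q - a) * W ≤ W * φ q - a * Δ := by
      simp only [hW, hΔ] at *
      nlinarith
    have hΔ0 : 0 ≤ Δ := by
      by_contra hc
      push Not at hc
      have : L * Δ < 0 := mul_neg_of_pos_of_neg hLpos hc
      have h3 : 0 ≤ (M - φ q₀) * W := mul_nonneg hdepth hWpos.le
      linarith
    have e3 : (M - φ q₀) * W ≤ 2 * a * Δ := e1.trans (mul_le_mul_of_nonneg_right hL2 hΔ0)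
    have e4 : φ (q - a) * W ≤ (φ q - (M - φ q₀) / 2) * W := by nlinarith
    exact le_of_mul_le_mul_right e4 hWpos

/-- The pointwise comparison at a crossing. -/
lemma pointwise {φ : ℝ → ℝ} (hφ : ConvexOn ℝ univ φ) {b a M q₀ m : ℝ} (ha : 0 < a)
    (hl : φ (b - a) = M) (hr : φ (b + a) = M) (hq₀ : b - a ≤ q₀) (hq₀' : q₀ ≤ b + a)
    (hmin : ∀ s, b - a ≤ s → s ≤ b + a → φ q₀ ≤ φ s) (hm : m ≤ M) (q : ℝ) :
    (M - φ q₀) / 2 * (1 - indicator (Ioo (b - 2 * a) (b + 2 * a)) (fun _ => (1 : ℝ)) q)
      - (M - φ q₀) * indicator (Icc (b - a) (b + a)) (fun _ => (1 : ℝ)) q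
      ≤ φ q - max m (min (φ (q - a)) (φ (q + a))) := by
  have hcd : b - a < b + a := by linarith
  have hdepth : 0 ≤ M - φ q₀ := by
    have := hmin (b + a) hcd.le le_rfl
    rw [hr] at this
    linarith
  -- reflected function
  have hφ' : ConvexOn ℝ univ (fun s => φ (-s)) := by
    refine ⟨convex_univ, ?_⟩
    intro x _ y _ α β hα hβ hαβ
    have h := hφ.2 (mem_univ (-x)) (mem_univ (-y)) hα hβ hαβ
    simp only [smul_eq_mul] at h ⊢
    have e : α * -x + β * -y = -(α * x + β * y) := by ring
    rw [e] at h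
    exact h
  by_cases h1 : b + 2 * a ≤ q
  · have hno : q ∉ Ioo (b - 2 * a) (b + 2 * a) := fun h => by linarith [h.2]
    have hno2 : q ∉ Icc (b - a) (b + a) := fun h => by linarith [h.2]
    rw [indicator_of_notMem hno, indicator_of_notMem hno2]
    have h2 := right_gain hφ ha hl hr hq₀ hq₀' hmin h1
    have h3 : M ≤ φ (q - a) := outer_ge hφ hcd hl hr (by linarith)
    have h4 : max m (min (φ (q - a)) (φ (q + a))) ≤ φ (q - a) :=
      max_le (hm.trans h3) (min_le_left _ _)
    simp only [sub_zero, mul_one, mul_zero]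
    linarith
  by_cases h1' : q ≤ b - 2 * a
  · have hno : q ∉ Ioo (b - 2 * a) (b + 2 * a) := fun h => by linarith [h.1]
    have hno2 : q ∉ Icc (b - a) (b + a) := fun h => by linarith [h.1]
    rw [indicator_of_notMem hno, indicator_of_notMem hno2]
    have h2 := right_gain (φ := fun s => φ (-s)) (b := -b) (a := a) (M := M) (q₀ := -q₀) (q := -q) hφ' ha
      (by simpa [neg_sub_left, add_comm] using hr)
      (by simpa [sub_eq_add_neg, add_comm] using hl)
      (by linarith) (by linarith)
      (by
        intro s h5 h6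
        have := hmin (-s) (by linarith) (by linarith)
        simpa using this)
      (by linarith)
    simp only [neg_neg] at h2
    have e : - q - a = -(q + a) := by ring
    rw [e, neg_neg] at h2
    have h3 : M ≤ φ (q + a) := by
      have := outer_ge (φ := fun s => φ (-s)) (c := -b - a) (d := -b + a) (M := M) (q := -q - a) hφ'
        (by linarith)
        (by simpa [neg_sub_left, add_comm] using hr)
        (by simpa [sub_eq_add_neg, add_comm] using hl) (by linarith)
      simpa [neg_sub_left, add_comm, sub_eq_add_neg] using this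
    have h4 : max m (min (φ (q - a)) (φ (q + a))) ≤ φ (q + a) :=
      max_le (hm.trans h3) (min_le_right _ _)
    simp only [sub_zero, mul_one, mul_zero]
    linarith
  push Not at h1 h1'
  have hin : q ∈ Ioo (b - 2 * a) (b + 2 * a) := ⟨h1', h1⟩
  rw [indicator_of_mem hin]
  simp only [sub_self, mul_zero, zero_sub]
  -- in the inner zone, the new function is at most `M`
  have hψ : max m (min (φ (q - a)) (φ (q + a))) ≤ M := by
    refine max_le hm ?_
    by_cases hq : b ≤ q
    · exact (min_le_left _ _).trans (bowl_le hφ hl hr (by linarith) (by linarith))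
    · push Not at hq
      exact (min_le_right _ _).trans (bowl_le hφ hl hr (by linarith) (by linarith))
  by_cases h5 : q ∈ Icc (b - a) (b + a)
  · rw [indicator_of_mem h5]
    have := hmin q h5.1 h5.2
    linarith
  · rw [indicator_of_notMem h5]
    have hout : M ≤ φ q := by
      by_cases h6 : b + a ≤ q
      · exact outer_ge hφ hcd hl hr h6
      · have h7 : q ≤ b - a := by
          by_contra hc
          push Not at hc h6
          exact h5 ⟨hc.le, h6.le⟩
        have := outer_ge (φ := fun s => φ (-s)) (c := -b - a) (d := -b + a) (M := M) (q := -q) hφ'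
          (by linarith)
          (by simpa [neg_sub_left, add_comm] using hr)
          (by simpa [sub_eq_add_neg, add_comm] using hl) (by linarith)
        simpa using this
    linarith

/-- Interval bound for the standard Gaussian. -/
lemma gauss_Icc_le (c d : ℝ) (hcd : c ≤ d) :
    (gaussianReal 0 1).real (Icc c d) ≤ (d - c) * (2 / 5) := by
  have hbound : ∀ x, gaussianPDF 0 1 x ≤ ENNReal.ofReal (2 / 5) := by
    intro x
    unfold gaussianPDF
    apply ENNReal.ofReal_le_ofReal
    rw [gaussianPDFReal]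
    have h1 : Real.exp (-(x - 0) ^ 2 / (2 * ((1 : NNReal) : ℝ))) ≤ 1 := by
      apply Real.exp_le_one_iff.mpr
      have : 0 ≤ (x - 0) ^ 2 / (2 * ((1 : NNReal) : ℝ)) := by positivity
      have e : -(x - 0) ^ 2 / (2 * ((1 : NNReal) : ℝ)) = -((x - 0) ^ 2 / (2 * ((1 : NNReal) : ℝ))) := by ring
      rw [e]
      linarith
    have h2 : (5 / 2 : ℝ) ≤ Real.sqrt (2 * Real.pi * ((1 : NNReal) : ℝ)) := by
      apply Real.le_sqrt_of_sq_le
      have := Real.pi_gt_d2
      simp only [NNReal.coe_one, mul_one]
      norm_num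
      linarith
    have h3 : (Real.sqrt (2 * Real.pi * ((1 : NNReal) : ℝ)))⁻¹ ≤ 2 / 5 := by
      rw [inv_le_comm₀ (by linarith) (by norm_num)]
      norm_num
      norm_num at h2
      linarith
    have h4 : 0 ≤ (Real.sqrt (2 * Real.pi * ((1 : NNReal) : ℝ)))⁻¹ := by positivity
    calc (Real.sqrt (2 * Real.pi * ((1 : NNReal) : ℝ)))⁻¹ * Real.exp (-(x - 0) ^ 2 / (2 * ((1 : NNReal) : ℝ)))
        ≤ (Real.sqrt (2 * Real.pi * ((1 : NNReal) : ℝ)))⁻¹ * 1 := mul_le_mul_of_nonneg_left h1 h4
      _ ≤ 2 / 5 := by linarith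
  have h : gaussianReal 0 1 (Icc c d) ≤ ENNReal.ofReal ((d - c) * (2 / 5)) := by
    rw [gaussianReal_apply 0 (by norm_num)]
    calc ∫⁻ x in Icc c d, gaussianPDF 0 1 x ≤ ∫⁻ _ in Icc c d, ENNReal.ofReal (2 / 5) :=
          lintegral_mono fun x => hbound x
      _ = ENNReal.ofReal (2 / 5) * volume (Icc c d) := by
          rw [setLIntegral_const]
      _ = ENNReal.ofReal ((d - c) * (2 / 5)) := by
          rw [Real.volume_Icc, ← ENNReal.ofReal_mul (by norm_num), mul_comm]
  have h2 := ENNReal.toReal_mono (by finiteness) h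
  rw [ENNReal.toReal_ofReal (mul_nonneg (by linarith) (by norm_num))] at h2
  exact h2

/-- **The one dimensional inequality.** -/
theorem line_ineq {φ : ℝ → ℝ} (hφ : ConvexOn ℝ univ φ) {a m : ℝ} (ha : 0 < a) (ha' : a ≤ 3 / 10)
    (hm : ∀ s, m ≤ max (φ (s - a)) (φ (s + a)))
    (hφi : Integrable φ (gaussianReal 0 1))
    (hψi : Integrable (fun s => max m (min (φ (s - a)) (φ (s + a)))) (gaussianReal 0 1)) :
    ∫ s, max m (min (φ (s - a)) (φ (s + a))) ∂(gaussianReal 0 1) ≤ ∫ s, φ s ∂(gaussianReal 0 1) := by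
  have hcont : Continuous φ := by
    have := hφ.continuousOn isOpen_univ
    exact continuousOn_univ.mp this
  let D : ℝ → ℝ := fun s => φ (s + a) - φ (s - a)
  have hD : Continuous D := by
    apply Continuous.sub
    · exact hcont.comp (continuous_id.add continuous_const)
    · exact hcont.comp (continuous_id.sub continuous_const)
  by_cases hzero : ∃ b, D b = 0
  · obtain ⟨b, hb⟩ := hzero
    set M := φ (b - a) with hM
    have hr : φ (b + a) = M := by
      have : φ (b + a) - φ (b - a) = 0 := hb
      linarith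
    have hcomp : IsCompact (Icc (b - a) (b + a)) := isCompact_Icc
    have hne : (Icc (b - a) (b + a)).Nonempty := ⟨b, by constructor <;> linarith⟩
    obtain ⟨q₀, hq₀, hmin⟩ := hcomp.exists_isMinOn hne hcont.continuousOn
    have hmin' : ∀ s, b - a ≤ s → s ≤ b + a → φ q₀ ≤ φ s := fun s h1 h2 => hmin ⟨h1, h2⟩
    have hmM : m ≤ M := by
      have := hm b
      rwa [hr, ← hM, max_self] at this
    have hdepth : 0 ≤ M - φ q₀ := by
      have := hmin' (b + a) (by linarith) le_rfl
      rw [hr] at this
      linarith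
    set w : ℝ → ℝ := fun q => (M - φ q₀) / 2 * (1 - indicator (Ioo (b - 2 * a) (b + 2 * a)) (fun _ => (1 : ℝ)) q)
      - (M - φ q₀) * indicator (Icc (b - a) (b + a)) (fun _ => (1 : ℝ)) q with hw
    have hind1 : Integrable (indicator (Ioo (b - 2 * a) (b + 2 * a)) (fun _ => (1 : ℝ))) (gaussianReal 0 1) :=
      (integrable_const (1 : ℝ)).indicator measurableSet_Ioo
    have hind2 : Integrable (indicator (Icc (b - a) (b + a)) (fun _ => (1 : ℝ))) (gaussianReal 0 1) :=
      (integrable_const (1 : ℝ)).indicator measurableSet_Icc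
    have hwi : Integrable w (gaussianReal 0 1) :=
      (((integrable_const (1 : ℝ)).sub hind1).const_mul _).sub (hind2.const_mul _)
    have hint1 : ∫ q, indicator (Ioo (b - 2 * a) (b + 2 * a)) (fun _ => (1 : ℝ)) q ∂(gaussianReal 0 1)
        ≤ 4 * a * (2 / 5) := by
      rw [integral_indicator measurableSet_Ioo]
      simp only [integral_const, smul_eq_mul, mul_one]
      rw [measureReal_restrict_apply_univ]
      have h1 : (gaussianReal 0 1).real (Ioo (b - 2 * a) (b + 2 * a))
          ≤ (gaussianReal 0 1).real (Icc (b - 2 * a) (b + 2 * a)) :=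
        measureReal_mono Ioo_subset_Icc_self
      have h2 := gauss_Icc_le (b - 2 * a) (b + 2 * a) (by linarith)
      have e : b + 2 * a - (b - 2 * a) = 4 * a := by ring
      rw [e] at h2
      exact h1.trans h2
    have hint2 : ∫ q, indicator (Icc (b - a) (b + a)) (fun _ => (1 : ℝ)) q ∂(gaussianReal 0 1)
        ≤ 2 * a * (2 / 5) := by
      rw [integral_indicator measurableSet_Icc]
      simp only [integral_const, smul_eq_mul, mul_one]
      rw [measureReal_restrict_apply_univ]
      have h2 := gauss_Icc_le (b - a) (b + a) (by linarith)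
      have e : b + a - (b - a) = 2 * a := by ring
      rw [e] at h2
      exact h2
    have hwint : 0 ≤ ∫ q, w q ∂(gaussianReal 0 1) := by
      have e : ∫ q, w q ∂(gaussianReal 0 1)
          = (M - φ q₀) / 2 * (1 - ∫ q, indicator (Ioo (b - 2 * a) (b + 2 * a)) (fun _ => (1 : ℝ)) q ∂(gaussianReal 0 1))
            - (M - φ q₀) * ∫ q, indicator (Icc (b - a) (b + a)) (fun _ => (1 : ℝ)) q ∂(gaussianReal 0 1) := by
        simp only [hw]
        have hf0 : Integrable (fun q => 1 - indicator (Ioo (b - 2 * a) (b + 2 * a)) (fun _ => (1 : ℝ)) q)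
            (gaussianReal 0 1) := (integrable_const (1 : ℝ)).sub hind1
        have hf1 : Integrable (fun q => (M - φ q₀) / 2 *
            (1 - indicator (Ioo (b - 2 * a) (b + 2 * a)) (fun _ => (1 : ℝ)) q)) (gaussianReal 0 1) :=
          hf0.const_mul _
        have hf2 : Integrable (fun q => (M - φ q₀) *
            indicator (Icc (b - a) (b + a)) (fun _ => (1 : ℝ)) q) (gaussianReal 0 1) :=
          hind2.const_mul _
        rw [integral_sub hf1 hf2, integral_const_mul, integral_const_mul]
        congr 2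
        rw [integral_sub (integrable_const (1 : ℝ)) hind1]
        simp
      rw [e]
      have h1 : 1 - ∫ q, indicator (Ioo (b - 2 * a) (b + 2 * a)) (fun _ => (1 : ℝ)) q ∂(gaussianReal 0 1)
          ≥ 1 - 4 * a * (2 / 5) := by linarith
      have h3 : (M - φ q₀) / 2 * (1 - 4 * a * (2 / 5)) ≤ (M - φ q₀) / 2 *
          (1 - ∫ q, indicator (Ioo (b - 2 * a) (b + 2 * a)) (fun _ => (1 : ℝ)) q ∂(gaussianReal 0 1)) :=
        mul_le_mul_of_nonneg_left h1 (by positivity)
      have h4 : (M - φ q₀) * ∫ q, indicator (Icc (b - a) (b + a)) (fun _ => (1 : ℝ)) q ∂(gaussianReal 0 1)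
          ≤ (M - φ q₀) * (2 * a * (2 / 5)) := mul_le_mul_of_nonneg_left hint2 hdepth
      have h5 : 0 ≤ (M - φ q₀) * (1 / 2 - 8 / 5 * a) :=
        mul_nonneg hdepth (by linarith)
      nlinarith
    have hle : ∫ q, w q ∂(gaussianReal 0 1)
        ≤ ∫ q, (φ q - max m (min (φ (q - a)) (φ (q + a)))) ∂(gaussianReal 0 1) :=
      integral_mono hwi (hφi.sub hψi) (fun q =>
        pointwise hφ ha rfl hr hq₀.1 hq₀.2 hmin' hmM q)
    rw [integral_sub hφi hψi] at hle
    linarith
  · -- monotone cases
    push Not at hzero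
    have hcases : (∀ s, 0 < D s) ∨ (∀ s, D s < 0) := by
      by_cases hpos : ∀ s, 0 < D s
      · exact Or.inl hpos
      · right
        push Not at hpos
        obtain ⟨s₀, hs₀⟩ := hpos
        intro s
        by_contra hc
        push Not at hc
        obtain ⟨t, ht⟩ := mem_range_of_exists_le_of_exists_ge hD ⟨s₀, hs₀⟩ ⟨s, hc⟩
        exact hzero t ht
    refine integral_mono hψi hφi (fun s => ?_)
    rcases hcases with h | h
    · -- increasing
      have h1 := h s
      have h2 := h (s - a)
      have e1 : s - a + a = s := by ring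
      have e2 : s - a - a = s - 2 * a := by ring
      simp only [D] at h1 h2
      rw [e1, e2] at h2
      have h3 := hm (s - a)
      rw [e1, e2, max_eq_right (by linarith : φ (s - 2 * a) ≤ φ s)] at h3
      have h4 : φ (s - a) ≤ φ s := by
        have h5 := cvx3 hφ (x := s - 2 * a) (y := s - a) (z := s) (by linarith) (by linarith)
        have e3 : s - (s - 2 * a) = 2 * a := by ring
        have e4 : s - (s - a) = a := by ring
        have e5 : s - a - (s - 2 * a) = a := by ring
        rw [e3, e4, e5] at h5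
        have h6 : φ (s - a) * (2 * a) ≤ φ s * (2 * a) := by nlinarith
        exact le_of_mul_le_mul_right h6 (by linarith)
      exact max_le h3 ((min_le_left _ _).trans h4)
    · have h1 := h s
      have h2 := h (s + a)
      have e1 : s + a - a = s := by ring
      have e2 : s + a + a = s + 2 * a := by ring
      simp only [D] at h1 h2
      rw [e1, e2] at h2
      have h3 := hm (s + a)
      rw [e1, e2, max_eq_left (by linarith : φ (s + 2 * a) ≤ φ s)] at h3
      have h4 : φ (s + a) ≤ φ s := by
        have h5 := cvx3 hφ (x := s) (y := s + a) (z := s + 2 * a) (by linarith) (by linarith)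
        have e3 : s + 2 * a - s = 2 * a := by ring
        have e4 : s + 2 * a - (s + a) = a := by ring
        have e5 : s + a - s = a := by ring
        rw [e3, e4, e5] at h5
        have h6 : φ (s + a) * (2 * a) ≤ φ s * (2 * a) := by nlinarith
        exact le_of_mul_le_mul_right h6 (by linarith)
      exact max_le h3 ((min_le_right _ _).trans h4)

end Vale.Agent.P262.FB
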