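import Vale.Agent.P262.FBOp

open MeasureTheory ProbabilityTheory Set Finset
open scoped InnerProductSpace

namespace Vale.Agent.P262.FB

variable {E : Type*} [NormedAddCommGroup E] [InnerProductSpace ℝ E] [FiniteDimensional ℝ E]
  [MeasurableSpace E] [BorelSpace E]

/-- Admissible test functions: convex, nonnegative, all translates are Gaussian integrable. -/
structure Adm (f : E → ℝ) : Prop where
  convex : ConvexOn ℝ Set.univ f
  nonneg : ∀ x, 0 ≤ f x
  integ : ∀ v : E, Integrable (fun x => f (x + v)) (stdGaussian E)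

namespace Adm

variable {f g : E → ℝ}

lemma integrable (h : Adm f) : Integrable f (stdGaussian E) := by
  simpa using h.integ 0

lemma continuous (h : Adm f) : Continuous f :=
  continuousOn_univ.mp (h.convex.continuousOn isOpen_univ)

lemma add (hf : Adm f) (hg : Adm g) : Adm (fun x => f x + g x) where
  convex := hf.convex.add hg.convex
  nonneg := fun x => add_nonneg (hf.nonneg x) (hg.nonneg x)
  integ := fun v => (hf.integ v).add (hg.integ v)

lemma smul (hf : Adm f) {c : ℝ} (hc : 0 ≤ c) : Adm (fun x => c * f x) where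
  convex := by
    have := hf.convex.smul hc
    simpa [smul_eq_mul] using this
  nonneg := fun x => mul_nonneg hc (hf.nonneg x)
  integ := fun v => (hf.integ v).const_mul c

lemma zero : Adm (fun _ : E => (0 : ℝ)) where
  convex := convexOn_const _ convex_univ
  nonneg := fun _ => le_rfl
  integ := fun _ => integrable_zero _ _ _

lemma T (hf : Adm f) (u : E) : Adm (T f u) where
  convex := T_convex hf.convex hf.nonneg
  nonneg := T_nonneg hf.nonneg
  integ := by
    intro v
    have hc : Continuous (Vale.Agent.P262.FB.T f u) :=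
      continuousOn_univ.mp ((T_convex hf.convex hf.nonneg).continuousOn isOpen_univ)
    have hm : AEStronglyMeasurable (fun x => Vale.Agent.P262.FB.T f u (x + v)) (stdGaussian E) :=
      (hc.comp (continuous_id.add continuous_const)).aestronglyMeasurable
    refine Integrable.mono' ((hf.integ (v - u)).add (hf.integ (v + u))) hm ?_
    refine Filter.Eventually.of_forall fun x => ?_
    rw [Real.norm_eq_abs, abs_of_nonneg (T_nonneg hf.nonneg _)]
    have h := T_le_add (u := u) hf.nonneg (x + v)
    have e1 : x + v - u = x + (v - u) := by abel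
    have e2 : x + v + u = x + (v + u) := by abel
    rw [e1, e2] at h
    exact h

end Adm

/-- The value function. -/
noncomputable def Z : ℕ → (ℕ → E) → (ℕ → E → ℝ) → E → ℝ
  | 0, _, _ => fun _ => 0
  | n + 1, u, g => T (fun x => g 0 x + Z n (fun i => u (i + 1)) (fun i => g (i + 1)) x) (u 0)

theorem Z_adm (n : ℕ) : ∀ (u : ℕ → E) (g : ℕ → E → ℝ), (∀ i, Adm (g i)) → Adm (Z n u g) := by
  induction n with
  | zero =>
    intro u g _
    exact Adm.zero
  | succ n ih =>
    intro u g hg
    exact ((hg 0).add (ih _ _ fun i => hg (i + 1))).T _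

theorem Z_int (n : ℕ) : ∀ (u : ℕ → E) (g : ℕ → E → ℝ), (∀ i, ‖u i‖ ≤ 3 / 10) → (∀ i, Adm (g i)) →
    ∫ x, Z n u g x ∂(stdGaussian E) ≤ ∑ t ∈ range n, ∫ x, g t x ∂(stdGaussian E) := by
  induction n with
  | zero =>
    intro u g _ _
    simp [Z]
  | succ n ih =>
    intro u g hu hg
    have hZ := Z_adm n (fun i => u (i + 1)) (fun i => g (i + 1)) (fun i => hg (i + 1))
    have hY := (hg 0).add hZ
    have h1 := T_mean (u := u 0) hY.convex hY.nonneg hY.integrable (hY.T (u 0)).integrable (hu 0)
    have h2 := ih (fun i => u (i + 1)) (fun i => g (i + 1)) (fun i => hu (i + 1)) (fun i => hg (i + 1))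
    rw [Finset.sum_range_succ']
    refine h1.trans ?_
    rw [integral_add (hg 0).integrable hZ.integrable]
    linarith

theorem Z_extract (n : ℕ) : ∀ (u : ℕ → E) (g : ℕ → E → ℝ) (x : E),
    ∃ ε : ℕ → ℝ, (∀ i, ε i = 1 ∨ ε i = -1) ∧
      ∑ t ∈ range n, g t (x + ∑ i ∈ range (t + 1), ε i • u i) ≤ Z n u g x := by
  induction n with
  | zero =>
    intro u g x
    exact ⟨fun _ => 1, fun _ => Or.inl rfl, by simp [Z]⟩
  | succ n ih =>
    intro u g x
    set Y : E → ℝ := fun x => g 0 x + Z n (fun i => u (i + 1)) (fun i => g (i + 1)) x with hY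
    have hT : min (Y (x - u 0)) (Y (x + u 0)) ≤ Z (n + 1) u g x := T_ge_min x
    have hsgn : ∃ σ : ℝ, (σ = 1 ∨ σ = -1) ∧ Y (x + σ • u 0) ≤ Z (n + 1) u g x := by
      rcases min_le_iff.mp hT with h | h
      · refine ⟨-1, Or.inr rfl, ?_⟩
        rw [neg_one_smul, ← sub_eq_add_neg]
        exact h
      · exact ⟨1, Or.inl rfl, by rwa [one_smul]⟩
    obtain ⟨σ, hσ, hY'⟩ := hsgn
    obtain ⟨ε', hε', hsum⟩ := ih (fun i => u (i + 1)) (fun i => g (i + 1)) (x + σ • u 0)
    refine ⟨fun i => Nat.casesOn i σ ε', ?_, ?_⟩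
    · intro i
      cases i with
      | zero => exact hσ
      | succ i => exact hε' i
    · rw [Finset.sum_range_succ']
      have hfirst : x + ∑ i ∈ range (0 + 1), (fun i => Nat.casesOn i σ ε' : ℕ → ℝ) i • u i = x + σ • u 0 := by
        simp
      have hrest : ∀ t, x + ∑ i ∈ range (t + 1 + 1), (fun i => Nat.casesOn i σ ε' : ℕ → ℝ) i • u i
          = x + σ • u 0 + ∑ i ∈ range (t + 1), ε' i • u (i + 1) := by
        intro t
        rw [Finset.sum_range_succ']
        simp only
        abel
      simp only [hrest, hfirst]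
      have h3 : g 0 (x + σ • u 0) + Z n (fun i => u (i + 1)) (fun i => g (i + 1)) (x + σ • u 0)
          ≤ Z (n + 1) u g x := hY'
      linarith

/-- **Functional form of Banaszczyk's prefix theorem, with no union bound.** -/
theorem fb_main (u : ℕ → E) (g : ℕ → E → ℝ) (hu : ∀ i, ‖u i‖ ≤ 3 / 10) (hg : ∀ i, Adm (g i)) (N : ℕ) :
    ∃ ε : ℕ → ℝ, (∀ i, ε i = 1 ∨ ε i = -1) ∧
      ∑ t ∈ range N, g t (∑ i ∈ range (t + 1), ε i • u i) ≤
        ∑ t ∈ range N, ∫ x, g t x ∂(stdGaussian E) := by
  obtain ⟨ε, hε, hsum⟩ := Z_extract N u g 0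
  refine ⟨ε, hε, ?_⟩
  simp only [zero_add] at hsum
  refine hsum.trans (le_trans ?_ (Z_int N u g hu hg))
  have hZ := Z_adm N u g hg
  have hid : Integrable (fun x : E => x) (stdGaussian E) := IsGaussian.integrable_fun_id
  have h := hZ.convex.map_integral_le (μ := stdGaussian E) (f := fun x : E => x) hZ.continuous.continuousOn
    isClosed_univ (Filter.Eventually.of_forall fun _ => mem_univ _) hid hZ.integrable
  rw [integral_id_stdGaussian] at h
  exact h

end Vale.Agent.P262.FB
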