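import Vale.Agent.P262.FBLine

open MeasureTheory ProbabilityTheory Set Finset
open scoped InnerProductSpace

namespace Vale.Agent.P262.FB

section op
variable {E : Type*} [NormedAddCommGroup E] [InnerProductSpace ℝ E]

/-- The critical level of the sections of `f` along the line through `x` with direction `u`. -/
noncomputable def lev (f : E → ℝ) (u x : E) : ℝ :=
  ⨅ r : ℝ, max (f (x + r • u - u)) (f (x + r • u + u))

/-- The symmetrisation operator. -/
noncomputable def T (f : E → ℝ) (u x : E) : ℝ :=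
  max (lev f u x) (min (f (x - u)) (f (x + u)))

variable {f : E → ℝ} {u : E}

lemma lev_bdd (hf0 : ∀ x, 0 ≤ f x) (x : E) :
    BddBelow (Set.range fun r : ℝ => max (f (x + r • u - u)) (f (x + r • u + u))) :=
  ⟨0, by
    rintro _ ⟨r, rfl⟩
    exact le_max_of_le_left (hf0 _)⟩

lemma lev_nonneg (hf0 : ∀ x, 0 ≤ f x) (x : E) : 0 ≤ lev f u x :=
  le_ciInf fun _ => le_max_of_le_left (hf0 _)

lemma lev_le (hf0 : ∀ x, 0 ≤ f x) (x : E) (r : ℝ) :
    lev f u x ≤ max (f (x + r • u - u)) (f (x + r • u + u)) :=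
  ciInf_le (lev_bdd hf0 x) r

lemma T_nonneg (hf0 : ∀ x, 0 ≤ f x) (x : E) : 0 ≤ T f u x :=
  le_max_of_le_left (lev_nonneg hf0 x)

lemma T_ge_min (x : E) : min (f (x - u)) (f (x + u)) ≤ T f u x := le_max_right _ _

lemma T_le_add (hf0 : ∀ x, 0 ≤ f x) (x : E) : T f u x ≤ f (x - u) + f (x + u) := by
  refine max_le ?_ ?_
  · have h := lev_le (u := u) hf0 x 0
    simp only [zero_smul, add_zero] at h
    refine h.trans (max_le ?_ ?_)
    · linarith [hf0 (x + u)]
    · linarith [hf0 (x - u)]
  · refine (min_le_left _ _).trans ?_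
    linarith [hf0 (x + u)]

lemma lev_add (x : E) (s : ℝ) : lev f u (x + s • u) = lev f u x := by
  unfold lev
  have h : ∀ r : ℝ, max (f (x + s • u + r • u - u)) (f (x + s • u + r • u + u))
      = (fun r : ℝ => max (f (x + r • u - u)) (f (x + r • u + u))) (r + s) := by
    intro r
    have e : x + s • u + r • u = x + (r + s) • u := by
      rw [add_smul]
      abel
    simp only [e]
  simp only [h]
  exact (Equiv.addRight s).iInf_comp (g := fun r : ℝ => max (f (x + r • u - u)) (f (x + r • u + u)))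

lemma line_convex (hf : ConvexOn ℝ univ f) (w e : E) : ConvexOn ℝ univ (fun t : ℝ => f (w + t • e)) := by
  refine ⟨convex_univ, ?_⟩
  intro s _ t _ α β hα hβ hαβ
  have e1 : w + (α • s + β • t) • e = α • (w + s • e) + β • (w + t • e) := by
    obtain rfl : β = 1 - α := by linarith
    simp only [smul_eq_mul]
    module
  simp only [smul_eq_mul] at e1 ⊢
  rw [e1]
  have h := hf.2 (mem_univ (w + s • e)) (mem_univ (w + t • e)) hα hβ hαβ
  simpa [smul_eq_mul] using h

lemma line_seg (hf : ConvexOn ℝ univ f) (w e : E) {s₁ s s₂ C : ℝ} (h1 : s₁ ≤ s) (h2 : s ≤ s₂)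
    (h3 : f (w + s₁ • e) ≤ C) (h4 : f (w + s₂ • e) ≤ C) : f (w + s • e) ≤ C := by
  have hq : s ∈ segment ℝ s₁ s₂ := by
    rw [segment_eq_Icc (h1.trans h2)]
    exact ⟨h1, h2⟩
  have h := (line_convex hf w e).le_max_of_mem_segment (mem_univ s₁) (mem_univ s₂) hq
  exact h.trans (max_le h3 h4)

/-- `T f u` is convex. -/
theorem T_convex (hf : ConvexOn ℝ univ f) (hf0 : ∀ x, 0 ≤ f x) : ConvexOn ℝ univ (T f u) := by
  refine ⟨convex_univ, ?_⟩
  intro x _ y _ α β hα hβ hαβ
  simp only [smul_eq_mul]
  set z := α • x + β • y with hz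
  set c := α * T f u x + β * T f u y with hc
  have hconv : ∀ p q : E, f (α • p + β • q) ≤ α * f p + β * f q := by
    intro p q
    have h := hf.2 (mem_univ p) (mem_univ q) hα hβ hαβ
    simpa [smul_eq_mul] using h
  have hcomb : ∀ p q : E, f p ≤ T f u x → f q ≤ T f u y → f (α • p + β • q) ≤ c := by
    intro p q hp hq
    refine (hconv p q).trans ?_
    exact add_le_add (mul_le_mul_of_nonneg_left hp hα) (mul_le_mul_of_nonneg_left hq hβ)
  have hlev : ∀ δ > 0, ∃ r : ℝ, f (z + r • u - u) ≤ c + δ ∧ f (z + r • u + u) ≤ c + δ := by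
    intro δ hδ
    obtain ⟨r₁, h₁⟩ := exists_lt_of_ciInf_lt (lt_add_of_pos_right (lev f u x) hδ)
    obtain ⟨r₂, h₂⟩ := exists_lt_of_ciInf_lt (lt_add_of_pos_right (lev f u y) hδ)
    have hx : lev f u x ≤ T f u x := le_max_left _ _
    have hy : lev f u y ≤ T f u y := le_max_left _ _
    have hcδ : c + δ = α * (T f u x + δ) + β * (T f u y + δ) := by
      rw [hc]
      have : δ = (α + β) * δ := by rw [hαβ, one_mul]
      nlinarith
    have hmix : ∀ p q : E, f p ≤ T f u x + δ → f q ≤ T f u y + δ → f (α • p + β • q) ≤ c + δ := by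
      intro p q hp hq
      refine (hconv p q).trans ?_
      rw [hcδ]
      exact add_le_add (mul_le_mul_of_nonneg_left hp hα) (mul_le_mul_of_nonneg_left hq hβ)
    refine ⟨α * r₁ + β * r₂, ?_, ?_⟩
    · have e : z + (α * r₁ + β * r₂) • u - u = α • (x + r₁ • u - u) + β • (y + r₂ • u - u) := by
        obtain rfl : β = 1 - α := by linarith
        rw [hz]
        module
      rw [e]
      apply hmix
      · have := (le_max_left _ _).trans h₁.le
        linarith
      · have := (le_max_left _ _).trans h₂.le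
        linarith
    · have e : z + (α * r₁ + β * r₂) • u + u = α • (x + r₁ • u + u) + β • (y + r₂ • u + u) := by
        obtain rfl : β = 1 - α := by linarith
        rw [hz]
        module
      rw [e]
      apply hmix
      · have := (le_max_right _ _).trans h₁.le
        linarith
      · have := (le_max_right _ _).trans h₂.le
        linarith
  refine max_le ?_ ?_
  · -- the level
    refine le_of_forall_pos_le_add fun δ hδ => ?_
    obtain ⟨r, h1, h2⟩ := hlev δ hδ
    exact (ciInf_le (lev_bdd hf0 z) r).trans (max_le h1 h2)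
  · have hsgn : ∀ w : E, f (w - u) ≤ T f u w ∨ f (w + u) ≤ T f u w := by
      intro w
      exact min_le_iff.mp (T_ge_min w)
    have hcross : ∀ τ : ℝ, -1 ≤ τ → τ ≤ 1 → f (z + τ • u) ≤ c → min (f (z - u)) (f (z + u)) ≤ c := by
      intro τ h1 h2 hτ
      refine le_of_forall_pos_le_add fun δ hδ => ?_
      obtain ⟨r, h3, h4⟩ := hlev δ hδ
      by_cases hr : 0 ≤ r
      · have h5 : f (z + (1 : ℝ) • u) ≤ c + δ := by
          refine line_seg hf z u (s₁ := τ) (s₂ := r + 1) h2 (by linarith) (by linarith) ?_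
          rw [add_smul, one_smul, ← add_assoc]
          exact h4
        rw [one_smul] at h5
        exact (min_le_right _ _).trans h5
      · push Not at hr
        have h5 : f (z + (-1 : ℝ) • u) ≤ c + δ := by
          refine line_seg hf z u (s₁ := r - 1) (s₂ := τ) (by linarith) h1 ?_ (by linarith)
          rw [sub_smul, one_smul, ← add_sub_assoc]
          exact h3
        rw [neg_one_smul, ← sub_eq_add_neg] at h5
        exact (min_le_left _ _).trans h5
    rcases hsgn x with hx | hx <;> rcases hsgn y with hy | hy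
    · have h := hcomb _ _ hx hy
      have e : α • (x - u) + β • (y - u) = z - u := by
        obtain rfl : β = 1 - α := by linarith
        rw [hz]
        module
      rw [e] at h
      exact (min_le_left _ _).trans h
    · have h := hcomb _ _ hx hy
      have e : α • (x - u) + β • (y + u) = z + (β - α) • u := by
        rw [hz]
        module
      rw [e] at h
      exact hcross _ (by linarith) (by linarith) h
    · have h := hcomb _ _ hx hy
      have e : α • (x + u) + β • (y - u) = z + (α - β) • u := by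
        rw [hz]
        module
      rw [e] at h
      exact hcross _ (by linarith) (by linarith) h
    · have h := hcomb _ _ hx hy
      have e : α • (x + u) + β • (y + u) = z + u := by
        obtain rfl : β = 1 - α := by linarith
        rw [hz]
        module
      rw [e] at h
      exact (min_le_right _ _).trans h

end op

section gauss
variable {E : Type*} [NormedAddCommGroup E] [InnerProductSpace ℝ E] [FiniteDimensional ℝ E]
  [MeasurableSpace E] [BorelSpace E]

/-- Resampling the coordinate along a unit vector does not change the standard Gaussian. -/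
theorem resample {e : E} (he : ‖e‖ = 1) :
    ((stdGaussian E).prod (gaussianReal 0 1)).map
      (fun p : E × ℝ => p.1 - ⟪e, p.1⟫_ℝ • e + p.2 • e) = stdGaussian E := by
  haveI : CompleteSpace E := FiniteDimensional.complete ℝ E
  have hm : Measurable (fun p : E × ℝ => p.1 - ⟪e, p.1⟫_ℝ • e + p.2 • e) := by fun_prop
  haveI : IsProbabilityMeasure (((stdGaussian E).prod (gaussianReal 0 1)).map
      (fun p : E × ℝ => p.1 - ⟪e, p.1⟫_ℝ • e + p.2 • e)) :=
    Measure.isProbabilityMeasure_map hm.aemeasurable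
  apply Measure.ext_of_charFun
  funext t
  rw [charFun_stdGaussian, charFun_apply, integral_map hm.aemeasurable (by fun_prop)]
  have key : ∀ p : E × ℝ, Complex.exp ((⟪p.1 - ⟪e, p.1⟫_ℝ • e + p.2 • e, t⟫_ℝ : ℝ) * Complex.I)
      = Complex.exp ((⟪p.1, t - ⟪e, t⟫_ℝ • e⟫_ℝ : ℝ) * Complex.I)
        * Complex.exp (((⟪e, t⟫_ℝ : ℝ) : ℂ) * (p.2 : ℝ) * Complex.I) := by
    intro p
    rw [← Complex.exp_add]
    congr 1
    have : ⟪p.1 - ⟪e, p.1⟫_ℝ • e + p.2 • e, t⟫_ℝ = ⟪p.1, t - ⟪e, t⟫_ℝ • e⟫_ℝ + ⟪e, t⟫_ℝ * p.2 := by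
      rw [inner_add_left, inner_sub_left, inner_sub_right, real_inner_smul_left, real_inner_smul_left,
        real_inner_smul_right, real_inner_comm p.1 e]
      ring
    rw [this]
    push_cast
    ring
  simp_rw [key]
  rw [integral_prod_mul (fun x : E => Complex.exp ((⟪x, t - ⟪e, t⟫_ℝ • e⟫_ℝ : ℝ) * Complex.I))
    (fun s : ℝ => Complex.exp (((⟪e, t⟫_ℝ : ℝ) : ℂ) * (s : ℝ) * Complex.I))]
  have h1 : ∫ x : E, Complex.exp ((⟪x, t - ⟪e, t⟫_ℝ • e⟫_ℝ : ℝ) * Complex.I) ∂(stdGaussian E)
      = Complex.exp (- ‖t - ⟪e, t⟫_ℝ • e‖ ^ 2 / 2) := by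
    rw [← charFun_apply, charFun_stdGaussian]
  have h2 : ∫ s : ℝ, Complex.exp (((⟪e, t⟫_ℝ : ℝ) : ℂ) * (s : ℝ) * Complex.I) ∂(gaussianReal 0 1)
      = Complex.exp (- ((⟪e, t⟫_ℝ : ℝ) : ℂ) ^ 2 / 2) := by
    have h3 := charFun_gaussianReal (μ := 0) (v := 1) (⟪e, t⟫_ℝ)
    rw [charFun_apply_real] at h3
    rw [h3]
    congr 1
    simp
    ring
  rw [h1, h2, ← Complex.exp_add]
  congr 1
  have h4 : ‖t - ⟪e, t⟫_ℝ • e‖ ^ 2 = ‖t‖ ^ 2 - ⟪e, t⟫_ℝ ^ 2 := by
    rw [norm_sub_sq_real, norm_smul, he, real_inner_smul_right, real_inner_comm]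
    simp only [mul_one, Real.norm_eq_abs, sq_abs]
    ring
  have h5 : ((‖t - ⟪e, t⟫_ℝ • e‖ : ℝ) : ℂ) ^ 2 = ((‖t‖ : ℝ) : ℂ) ^ 2 - ((⟪e, t⟫_ℝ : ℝ) : ℂ) ^ 2 := by
    exact_mod_cast h4
  push_cast at *
  rw [h5]
  ring

variable {f : E → ℝ} {u : E}

/-- **The mean inequality.** -/
theorem T_mean (hf : ConvexOn ℝ univ f) (hf0 : ∀ x, 0 ≤ f x)
    (hfi : Integrable f (stdGaussian E)) (hTi : Integrable (T f u) (stdGaussian E))
    (hu : ‖u‖ ≤ 3 / 10) :
    ∫ x, T f u x ∂(stdGaussian E) ≤ ∫ x, f x ∂(stdGaussian E) := by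
  by_cases hu0 : u = 0
  · subst hu0
    have h : ∀ x, T f 0 x = f x := by
      intro x
      simp [T, lev]
    simp only [h]
    exact le_rfl
  set a := ‖u‖ with ha
  have hapos : 0 < a := norm_pos_iff.mpr hu0
  set e : E := (1 / a) • u with he
  have hen : ‖e‖ = 1 := by
    rw [he, norm_smul, Real.norm_eq_abs, abs_of_pos (by positivity), ← ha]
    field_simp
  have hue : u = a • e := by
    rw [he, smul_smul]
    field_simp
    simp
  set R : E × ℝ → E := fun p => p.1 - ⟪e, p.1⟫_ℝ • e + p.2 • e with hR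
  have hRm : Measurable R := by
    simp only [hR]
    fun_prop
  have hmap := resample (E := E) hen
  have hlift : ∀ F : E → ℝ, Integrable F (stdGaussian E) →
      Integrable (fun p => F (R p)) ((stdGaussian E).prod (gaussianReal 0 1)) := by
    intro F hF
    have h1 : Integrable F (((stdGaussian E).prod (gaussianReal 0 1)).map R) := by
      simp only [hR]
      rw [hmap]
      exact hF
    exact (integrable_map_measure h1.aestronglyMeasurable hRm.aemeasurable).mp h1
  have hint : ∀ F : E → ℝ, Integrable F (stdGaussian E) →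
      ∫ x, F x ∂(stdGaussian E) = ∫ x, ∫ s, F (R (x, s)) ∂(gaussianReal 0 1) ∂(stdGaussian E) := by
    intro F hF
    have h1 : Integrable F (((stdGaussian E).prod (gaussianReal 0 1)).map R) := by
      simp only [hR]
      rw [hmap]
      exact hF
    calc ∫ x, F x ∂(stdGaussian E) = ∫ x, F x ∂(((stdGaussian E).prod (gaussianReal 0 1)).map R) := by
          simp only [hR]
          rw [hmap]
      _ = ∫ p, F (R p) ∂((stdGaussian E).prod (gaussianReal 0 1)) :=
          integral_map hRm.aemeasurable h1.aestronglyMeasurable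
      _ = _ := integral_prod _ (hlift F hF)
  rw [hint _ hTi, hint _ hfi]
  have hfl := hlift _ hfi
  have hTl := hlift _ hTi
  refine integral_mono_ae hTl.integral_prod_left hfl.integral_prod_left ?_
  filter_upwards [hfl.prod_right_ae, hTl.prod_right_ae] with x h1 h2
  set w : E := x - ⟪e, x⟫_ℝ • e with hw
  have hRx : ∀ s : ℝ, R (x, s) = w + s • e := fun s => rfl
  have hshift : ∀ s : ℝ, w + s • e - u = w + (s - a) • e := by
    intro s
    rw [hue, sub_smul]
    abel
  have hshift' : ∀ s : ℝ, w + s • e + u = w + (s + a) • e := by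
    intro s
    rw [hue, add_smul]
    abel
  have hlevs : ∀ s : ℝ, lev f u (w + s • e) = lev f u w := by
    intro s
    have : s • e = (s / a) • u := by
      rw [hue, smul_smul]
      congr 1
      field_simp
    rw [this, lev_add]
  have hTform : ∀ s : ℝ, T f u (R (x, s)) =
      max (lev f u w) (min (f (w + (s - a) • e)) (f (w + (s + a) • e))) := by
    intro s
    rw [hRx]
    unfold T
    rw [hlevs, hshift, hshift']
  simp only [hTform] at h2 ⊢
  simp only [hRx] at h1 ⊢
  refine line_ineq (φ := fun s => f (w + s • e)) (line_convex hf w e) hapos hu ?_ h1 h2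
  intro s
  have h3 := lev_le (u := u) hf0 w (s / a)
  have h4 : (s / a) • u = s • e := by
    rw [hue, smul_smul]
    congr 1
    field_simp
  rw [h4, hshift, hshift'] at h3
  exact h3

end gauss

end Vale.Agent.P262.FB
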