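import Vale.Agent.P262.Plane

namespace Vale.Agent.P262

open scoped RealInnerProductSpace

/-- `KillList T p L`: from the position `p`, every signing of the list `L` has a prefix with squared
norm exceeding `T`. -/
def KillList {E : Type*} [NormedAddCommGroup E] (T : ℝ) : E → List E → Prop
  | p, [] => T < ‖p‖ ^ 2
  | p, v :: L => T < ‖p‖ ^ 2 ∨ (KillList T (p + v) L ∧ KillList T (p - v) L)

lemma KillList.of_large {E : Type*} [NormedAddCommGroup E] {T : ℝ} {p : E} (h : T < ‖p‖ ^ 2)
    (L : List E) : KillList T p L := by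
  cases L with
  | nil => exact h
  | cons v L => exact Or.inl h

lemma KillList.neg {E : Type*} [NormedAddCommGroup E] {T : ℝ} (L : List E) :
    ∀ p : E, KillList T p L → KillList T (-p) L := by
  induction L with
  | nil =>
    intro p h
    simpa [KillList] using h
  | cons v L ih =>
    intro p h
    rcases h with h | ⟨h1, h2⟩
    · left; simpa using h
    · right
      constructor
      · have := ih _ h2
        have e : -(p - v) = -p + v := by abel
        rwa [e] at this
      · have := ih _ h1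
        have e : -(p + v) = -p - v := by abel
        rwa [e] at this

/-- There is a unit vector of the plane with a prescribed inner product with `p`. -/
lemma exists_unit_inner (p : E2) (c : ℝ) (hp : 0 < ‖p‖ ^ 2) (hc : c ^ 2 ≤ ‖p‖ ^ 2) :
    ∃ v : E2, ‖v‖ = 1 ∧ ⟪p, v⟫ = c := by
  set ρ := ‖p‖ ^ 2 with hρ
  set s := Real.sqrt (ρ - c ^ 2) with hs
  have hs2 : s ^ 2 = ρ - c ^ 2 := Real.sq_sqrt (by linarith)
  have hρc : ρ = p 0 ^ 2 + p 1 ^ 2 := norm_sq_coords p
  refine ⟨!₂[(c * p 0 - s * p 1) / ρ, (c * p 1 + s * p 0) / ρ], ?_, ?_⟩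
  · have h : ‖(!₂[(c * p 0 - s * p 1) / ρ, (c * p 1 + s * p 0) / ρ] : E2)‖ ^ 2 = 1 := by
      rw [norm_sq_coords]
      simp only [Matrix.cons_val_zero, Matrix.cons_val_one, Matrix.cons_val_fin_one]
      field_simp
      nlinarith [hs2, hρc]
    have h0 := norm_nonneg (!₂[(c * p 0 - s * p 1) / ρ, (c * p 1 + s * p 0) / ρ] : E2)
    nlinarith
  · rw [inner_coords]
    simp only [Matrix.cons_val_zero, Matrix.cons_val_one, Matrix.cons_val_fin_one]
    field_simp
    rw [hρc]
    ring

/-- The forcing lemma in the plane. -/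
lemma plane_kill (T : ℝ) (hT : T < 3) (n : ℕ) : ∀ p : E2, 1 ≤ ‖p‖ ^ 2 →
    1 < (3 / 2 : ℝ) ^ n * (‖p‖ ^ 2 - (T - 2)) →
    ∃ L : List E2, (∀ u ∈ L, ‖u‖ ≤ 1) ∧ KillList T p L := by
  induction n with
  | zero =>
    intro p hp h
    simp only [pow_zero, one_mul] at h
    obtain ⟨v, hv, hin⟩ := exists_unit_inner p 0 (by linarith) (by nlinarith)
    refine ⟨[v], ?_, ?_⟩
    · intro u hu
      simp only [List.mem_singleton] at hu
      rw [hu, hv]
    · right
      constructor
      · change T < ‖p + v‖ ^ 2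
        rw [norm_add_sq_real, hv, hin]; linarith
      · change T < ‖p - v‖ ^ 2
        rw [norm_sub_sq_real, hv, hin]; linarith
  | succ m ih =>
    intro p hp h
    by_cases hbase : T < ‖p‖ ^ 2 + 1
    · obtain ⟨v, hv, hin⟩ := exists_unit_inner p 0 (by linarith) (by nlinarith)
      refine ⟨[v], ?_, ?_⟩
      · intro u hu
        simp only [List.mem_singleton] at hu
        rw [hu, hv]
      · right
        constructor
        · change T < ‖p + v‖ ^ 2
          rw [norm_add_sq_real, hv, hin]; linarith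
        · change T < ‖p - v‖ ^ 2
          rw [norm_sub_sq_real, hv, hin]; linarith
    · push Not at hbase
      set ρ := ‖p‖ ^ 2 with hρ
      set δ := ρ - (T - 2) with hδ
      have hpow : 0 < (3 / 2 : ℝ) ^ (m + 1) := by positivity
      have hδpos : 0 < δ := by
        by_contra hneg
        push Not at hneg
        have : (3 / 2 : ℝ) ^ (m + 1) * δ ≤ 0 := mul_nonpos_of_nonneg_of_nonpos hpow.le hneg
        linarith
      have hδ1 : δ ≤ 1 := by rw [hδ]; linarith
      set c := (T + δ / 2 - ρ - 1) / 2 with hc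
      have hc0 : 0 < c := by rw [hc]; linarith
      have hc1 : c ≤ 3 / 4 := by rw [hc]; linarith
      have hc2 : c ^ 2 ≤ ρ := by nlinarith
      obtain ⟨v, hv, hin⟩ := exists_unit_inner p c (by linarith) hc2
      have hplus : T < ‖p + v‖ ^ 2 := by
        rw [norm_add_sq_real, hv, hin, hc]; linarith
      have hminus : ‖p - v‖ ^ 2 = ρ + 1 - 2 * c := by
        rw [norm_sub_sq_real, hv, hin]; ring
      have hρ' : 1 ≤ ‖p - v‖ ^ 2 := by
        rw [hminus, hc]; linarith
      have hgrow : 1 < (3 / 2 : ℝ) ^ m * (‖p - v‖ ^ 2 - (T - 2)) := by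
        have e : ‖p - v‖ ^ 2 - (T - 2) = (3 / 2) * δ := by
          rw [hminus, hc, hδ]; ring
        rw [e]
        have e2 : (3 / 2 : ℝ) ^ m * ((3 / 2) * δ) = (3 / 2 : ℝ) ^ (m + 1) * δ := by ring
        rw [e2]; exact h
      obtain ⟨L, hL, hk⟩ := ih (p - v) hρ' hgrow
      refine ⟨v :: L, ?_, ?_⟩
      · intro u hu
        rcases List.mem_cons.1 hu with rfl | hu
        · rw [hv]
        · exact hL u hu
      · exact Or.inr ⟨KillList.of_large hplus L, hk⟩

/-- `KillExists d T`: some list in the unit ball of `ℝ^d` kills the threshold `T` from the origin. -/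
def KillExists (d : ℕ) (T : ℝ) : Prop :=
  ∃ L : List (EuclideanSpace ℝ (Fin d)), (∀ u ∈ L, ‖u‖ ≤ 1) ∧ KillList T 0 L

lemma kill_two (T : ℝ) (hT : T < 3) : KillExists 2 T := by
  have he : ‖(!₂[1, 0] : E2)‖ ^ 2 = 1 := by
    rw [norm_sq_coords]; simp
  have he1 : ‖(!₂[1, 0] : E2)‖ = 1 := by
    have h0 := norm_nonneg (!₂[1, 0] : E2)
    nlinarith
  obtain ⟨n, hn⟩ := pow_unbounded_of_one_lt (1 / (3 - T)) (by norm_num : (1 : ℝ) < 3 / 2)
  have hδ : 0 < 3 - T := by linarith
  have h : 1 < (3 / 2 : ℝ) ^ n * (‖(!₂[1, 0] : E2)‖ ^ 2 - (T - 2)) := by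
    rw [he]
    have e : (1 : ℝ) - (T - 2) = 3 - T := by ring
    rw [e]
    rwa [div_lt_iff₀ hδ] at hn
  obtain ⟨L, hL, hk⟩ := plane_kill T hT n _ (le_of_eq he.symm) h
  refine ⟨!₂[1, 0] :: L, ?_, ?_⟩
  · intro u hu
    rcases List.mem_cons.1 hu with rfl | hu
    · rw [he1]
    · exact hL u hu
  · right
    constructor
    · simpa using hk
    · have := KillList.neg L _ hk
      simpa using this

/-- Embedding `ℝ^d` into `ℝ^(d+1)` with a prescribed last coordinate. -/
noncomputable def lift {d : ℕ} (h : ℝ) (x : EuclideanSpace ℝ (Fin d)) : EuclideanSpace ℝ (Fin (d + 1)) :=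
  WithLp.toLp 2 (Fin.snoc (fun i => x i) h)

lemma lift_norm_sq {d : ℕ} (h : ℝ) (x : EuclideanSpace ℝ (Fin d)) :
    ‖lift h x‖ ^ 2 = ‖x‖ ^ 2 + h ^ 2 := by
  rw [EuclideanSpace.norm_sq_eq, EuclideanSpace.norm_sq_eq, Fin.sum_univ_castSucc]
  simp [lift]

lemma lift_add {d : ℕ} (h k : ℝ) (x y : EuclideanSpace ℝ (Fin d)) :
    lift h x + lift k y = lift (h + k) (x + y) := by
  ext i
  refine Fin.lastCases ?_ (fun j => ?_) i <;> simp [lift]

lemma lift_sub {d : ℕ} (h k : ℝ) (x y : EuclideanSpace ℝ (Fin d)) :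
    lift h x - lift k y = lift (h - k) (x - y) := by
  ext i
  refine Fin.lastCases ?_ (fun j => ?_) i <;> simp [lift]

lemma kill_lift {d : ℕ} {T : ℝ} (a : ℝ) (ha : a ^ 2 = 1) (L : List (EuclideanSpace ℝ (Fin d))) :
    ∀ p, KillList T p L → KillList (T + 1) (lift a p) (L.map (lift 0)) := by
  induction L with
  | nil =>
    intro p hp
    change T + 1 < ‖lift a p‖ ^ 2
    rw [lift_norm_sq, ha]
    change T < ‖p‖ ^ 2 at hp
    linarith
  | cons v L ih =>
    intro p hp
    rcases hp with hp | ⟨h1, h2⟩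
    · left
      rw [lift_norm_sq, ha]; linarith
    · right
      constructor
      · have := ih _ h1
        rw [lift_add]; simpa using this
      · have := ih _ h2
        rw [lift_sub]; simpa using this

lemma kill_succ {d : ℕ} {T : ℝ} (h : KillExists d T) : KillExists (d + 1) (T + 1) := by
  obtain ⟨L, hL, hk⟩ := h
  refine ⟨lift 1 0 :: L.map (lift 0), ?_, ?_⟩
  · intro u hu
    rcases List.mem_cons.1 hu with rfl | hu
    · have : ‖lift (d := d) 1 0‖ ^ 2 = 1 := by rw [lift_norm_sq]; simp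
      have h0 := norm_nonneg (lift (d := d) 1 0)
      nlinarith
    · obtain ⟨w, hw, rfl⟩ := List.mem_map.1 hu
      have : ‖lift 0 w‖ ^ 2 = ‖w‖ ^ 2 := by rw [lift_norm_sq]; simp
      have h1 := hL w hw
      have h0 := norm_nonneg (lift 0 w)
      have h2 := norm_nonneg w
      nlinarith
  · right
    have e0 : (0 : EuclideanSpace ℝ (Fin (d + 1))) + lift 1 0 = lift 1 0 := zero_add _
    have e1 : (0 : EuclideanSpace ℝ (Fin (d + 1))) - lift 1 0 = lift (-1) 0 := by
      ext i
      refine Fin.lastCases ?_ (fun j => ?_) i <;> simp [lift]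
    rw [e0, e1]
    exact ⟨kill_lift 1 (by norm_num) L 0 hk, kill_lift (-1) (by norm_num) L 0 hk⟩

lemma kill_all (k : ℕ) (T : ℝ) (hT : T < k + 3) : KillExists (k + 2) T := by
  induction k generalizing T with
  | zero => exact kill_two T (by simpa using hT)
  | succ k ih =>
    have := ih (T - 1) (by push_cast at hT; linarith)
    have h := kill_succ this
    have e : T - 1 + 1 = T := by ring
    rw [e] at h
    exact h

/-- A killing list contradicts a prefix bound, in the `Fin`-indexed formulation. -/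
lemma kill_prefix {d : ℕ} {T : ℝ} (L : List (EuclideanSpace ℝ (Fin d))) :
    ∀ (p : EuclideanSpace ℝ (Fin d)) (ε : Fin L.length → ℝ), (∀ i, ε i = 1 ∨ ε i = -1) →
      KillList T p L →
      ∃ k : ℕ, k ≤ L.length ∧
        T < ‖p + ∑ i : Fin L.length, (if i.val < k then ε i • L.get i else 0)‖ ^ 2 := by
  induction L with
  | nil =>
    intro p ε _ h
    exact ⟨0, le_refl _, by simpa [KillList] using h⟩
  | cons v L ih =>
    intro p ε hε h
    rcases h with h | ⟨h1, h2⟩
    · exact ⟨0, Nat.zero_le _, by simpa using h⟩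
    · -- the tail signing
      set ε' : Fin L.length → ℝ := fun i => ε i.succ with hε'
      have hsign : ∀ i, ε' i = 1 ∨ ε' i = -1 := fun i => hε _
      have hcase : KillList T (p + ε ⟨0, by simp⟩ • v) L := by
        rcases hε ⟨0, by simp⟩ with h0 | h0
        · rw [h0, one_smul]; exact h1
        · rw [h0, neg_smul, one_smul, ← sub_eq_add_neg]; exact h2
      obtain ⟨k, hk, hTk⟩ := ih _ ε' hsign hcase
      refine ⟨k + 1, by simpa using hk, ?_⟩
      have e : (∑ i : Fin (v :: L).length, if i.val < k + 1 then ε i • (v :: L).get i else 0)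
          = ε ⟨0, by simp⟩ • v + ∑ i : Fin L.length, if i.val < k then ε' i • L.get i else 0 := by
        change (∑ i : Fin (L.length + 1), if i.val < k + 1 then ε i • (v :: L).get i else 0) = _
        rw [Fin.sum_univ_succ]
        simp [hε']
      rw [e, ← add_assoc]
      exact hTk

/-- Lower bound: `σ(d) ≥ √(d+1)` for every `d ≥ 2`. -/
theorem lower_all (d : ℕ) (hd : 2 ≤ d) (R : ℝ) (h : SignedPrefixBound d R) :
    Real.sqrt (d + 1) ≤ R := by
  obtain ⟨k, rfl⟩ : ∃ k, d = k + 2 := ⟨d - 2, by omega⟩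
  have hR : 0 ≤ R := by
    obtain ⟨ε, _, hk⟩ := h 0 (fun i => i.elim0) (fun i => i.elim0)
    simpa using hk 0 (le_refl _)
  apply Real.sqrt_le_iff.2
  refine ⟨hR, ?_⟩
  by_contra hcon
  push Not at hcon
  have hT : R ^ 2 < (k : ℝ) + 3 := by push_cast at hcon; linarith
  obtain ⟨L, hL, hk⟩ := kill_all k (R ^ 2) hT
  obtain ⟨ε, hε, hpre⟩ := h L.length L.get (fun i => hL _ (List.get_mem _ _))
  obtain ⟨m, hm, hTm⟩ := kill_prefix L 0 ε hε hk
  have := hpre m hm
  rw [zero_add] at hTm
  have h0 := norm_nonneg (∑ i : Fin L.length, if i.val < m then ε i • L.get i else 0)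
  nlinarith

end Vale.Agent.P262
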