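import Vale.Agent.P262.Defs

namespace Vale.Agent.P262

open scoped RealInnerProductSpace

abbrev E2 := EuclideanSpace ℝ (Fin 2)

/-- A small term estimate used in `gram_contra`. -/
lemma small_term (a b c x : ℝ) (ha : 0 < a) (hb : 0 < b) (hc : 0 < c) (hb1 : b ≤ 1) (hc1 : c ≤ 1)
    (hx : |x| ≤ b * c / 2) : a * x ^ 2 ≤ a * b * c / 4 := by
  have hbc : 0 < b * c := mul_pos hb hc
  have hbc1 : b * c ≤ 1 := by nlinarith
  have h1 : x ^ 2 ≤ (b * c / 2) ^ 2 := by
    rw [← sq_abs x]
    exact pow_le_pow_left₀ (abs_nonneg x) hx 2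
  have h2 : (b * c / 2) ^ 2 ≤ b * c / 4 := by nlinarith
  have h3 : x ^ 2 ≤ b * c / 4 := le_trans h1 h2
  have h4 := mul_le_mul_of_nonneg_left h3 ha.le
  have e : a * (b * c / 4) = a * b * c / 4 := by ring
  linarith

/-- The real-number core of the three-vector lemma: a positive semidefinite Gram matrix of rank
at most two cannot have all three pairs unmergeable. -/
lemma gram_contra (α β γ p q r : ℝ) (hα : α ≤ 1) (hβ : β ≤ 1) (hγ : γ ≤ 1)
    (h1 : α + β + 2 * p > 1) (h2 : α + β - 2 * p > 1)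
    (h3 : α + γ + 2 * q > 1) (h4 : α + γ - 2 * q > 1)
    (h5 : β + γ + 2 * r > 1) (h6 : β + γ - 2 * r > 1)
    (hdet : α * β * γ + 2 * p * q * r - α * r ^ 2 - β * q ^ 2 - γ * p ^ 2 = 0) : False := by
  have hα0 : 0 < α := by linarith
  have hβ0 : 0 < β := by linarith
  have hγ0 : 0 < γ := by linarith
  have habp : α + β - 1 ≤ α * β := by nlinarith [mul_nonneg (sub_nonneg.2 hα) (sub_nonneg.2 hβ)]
  have hacp : α + γ - 1 ≤ α * γ := by nlinarith [mul_nonneg (sub_nonneg.2 hα) (sub_nonneg.2 hγ)]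
  have hbcp : β + γ - 1 ≤ β * γ := by nlinarith [mul_nonneg (sub_nonneg.2 hβ) (sub_nonneg.2 hγ)]
  have hpA : |p| < α * β / 2 := by rw [abs_lt]; constructor <;> linarith
  have hqB : |q| < α * γ / 2 := by rw [abs_lt]; constructor <;> linarith
  have hrC : |r| < β * γ / 2 := by rw [abs_lt]; constructor <;> linarith
  have habc : 0 < α * β * γ := by positivity
  have t1 : α * r ^ 2 ≤ α * β * γ / 4 := small_term α β γ r hα0 hβ0 hγ0 hβ hγ hrC.le
  have t2 : β * q ^ 2 ≤ α * β * γ / 4 := by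
    have := small_term β α γ q hβ0 hα0 hγ0 hα hγ hqB.le
    have e : β * α * γ = α * β * γ := by ring
    rw [e] at this; exact this
  have t3 : γ * p ^ 2 ≤ α * β * γ / 4 := by
    have := small_term γ α β p hγ0 hα0 hβ0 hα hβ hpA.le
    have e : γ * α * β = α * β * γ := by ring
    rw [e] at this; exact this
  have t4 : - (2 * p * q * r) < α * β * γ / 4 := by
    have hAB : 0 < α * β / 2 := by positivity
    have hAC : 0 < α * γ / 2 := by positivity
    have hBC : 0 < β * γ / 2 := by positivity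
    have h : |2 * p * q * r| = 2 * (|p| * |q| * |r|) := by
      simp only [abs_mul, abs_two]; ring
    have h0 : - (2 * p * q * r) ≤ |2 * p * q * r| := neg_le_abs _
    have h1' : |p| * |q| < (α * β / 2) * (α * γ / 2) :=
      mul_lt_mul'' hpA hqB (abs_nonneg _) (abs_nonneg _)
    have h2' : |p| * |q| * |r| < (α * β / 2) * (α * γ / 2) * (β * γ / 2) :=
      mul_lt_mul'' h1' hrC (by positivity) (abs_nonneg _)
    have h3' : (α * β / 2) * (α * γ / 2) * (β * γ / 2) = (α * β * γ) * (α * β * γ) / 8 := by ring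
    have h4' : α * β ≤ 1 := by nlinarith
    have h5' : α * β * γ ≤ 1 := by nlinarith
    have h6' : (α * β * γ) * (α * β * γ) ≤ α * β * γ := by nlinarith
    rw [h] at h0
    linarith
  linarith

/-- A sign-merge: `a + s • b` has norm at most one for some sign `s`. -/
def Merge (a b : E2) : Prop := ∃ s : ℝ, (s = 1 ∨ s = -1) ∧ ‖a + s • b‖ ≤ 1

lemma inner_coords (a b : E2) : ⟪a, b⟫ = a 0 * b 0 + a 1 * b 1 := by
  simp [PiLp.inner_apply, Fin.sum_univ_two]
  ring

lemma norm_sq_coords (a : E2) : ‖a‖ ^ 2 = a 0 ^ 2 + a 1 ^ 2 := by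
  rw [← real_inner_self_eq_norm_sq, inner_coords]; ring

lemma not_merge_iff {a b : E2} (h : ¬ Merge a b) :
    ‖a‖ ^ 2 + ‖b‖ ^ 2 + 2 * ⟪a, b⟫ > 1 ∧ ‖a‖ ^ 2 + ‖b‖ ^ 2 - 2 * ⟪a, b⟫ > 1 := by
  unfold Merge at h
  push Not at h
  have h1 := h 1 (Or.inl rfl)
  have h2 := h (-1) (Or.inr rfl)
  simp only [one_smul, neg_smul] at h1 h2
  rw [← sub_eq_add_neg] at h2
  have h1' : 1 < ‖a + b‖ ^ 2 := by nlinarith [norm_nonneg (a + b)]
  have h2' : 1 < ‖a - b‖ ^ 2 := by nlinarith [norm_nonneg (a - b)]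
  rw [norm_add_sq_real] at h1'
  rw [norm_sub_sq_real] at h2'
  constructor <;> linarith

/-- Among three vectors of the unit disc two can be merged by a sign into a vector of the disc. -/
lemma three_merge (a b c : E2) (ha : ‖a‖ ≤ 1) (hb : ‖b‖ ≤ 1) (hc : ‖c‖ ≤ 1) :
    Merge a b ∨ Merge a c ∨ Merge b c := by
  by_contra hcon
  push Not at hcon
  obtain ⟨h1, h2, h3⟩ := hcon
  obtain ⟨h1a, h1b⟩ := not_merge_iff h1
  obtain ⟨h2a, h2b⟩ := not_merge_iff h2
  obtain ⟨h3a, h3b⟩ := not_merge_iff h3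
  have hα : ‖a‖ ^ 2 ≤ 1 := by nlinarith [norm_nonneg a]
  have hβ : ‖b‖ ^ 2 ≤ 1 := by nlinarith [norm_nonneg b]
  have hγ : ‖c‖ ^ 2 ≤ 1 := by nlinarith [norm_nonneg c]
  refine gram_contra (‖a‖ ^ 2) (‖b‖ ^ 2) (‖c‖ ^ 2) ⟪a, b⟫ ⟪a, c⟫ ⟪b, c⟫ hα hβ hγ
    h1a h1b h2a h2b h3a h3b ?_
  rw [norm_sq_coords a, norm_sq_coords b, norm_sq_coords c, inner_coords a b, inner_coords a c,
    inner_coords b c]
  ring

lemma sqrt3_of_not_merge {a b : E2} (ha : ‖a‖ ≤ 1) (hb : ‖b‖ ≤ 1) (h : 1 ≤ ‖a - b‖) :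
    ‖a + b‖ ≤ Real.sqrt 3 := by
  apply Real.le_sqrt_of_sq_le
  have h1 : ‖a + b‖ ^ 2 + ‖a - b‖ ^ 2 = 2 * (‖a‖ ^ 2 + ‖b‖ ^ 2) := by
    rw [norm_add_sq_real, norm_sub_sq_real]; ring
  have h2 : 1 ≤ ‖a - b‖ ^ 2 := by nlinarith
  have h3 : ‖a‖ ^ 2 ≤ 1 := by nlinarith [norm_nonneg a]
  have h4 : ‖b‖ ^ 2 ≤ 1 := by nlinarith [norm_nonneg b]
  nlinarith

lemma norm_sign_smul (s : ℝ) (hs : s = 1 ∨ s = -1) (x : E2) : ‖s • x‖ = ‖x‖ := by
  rcases hs with rfl | rfl <;> simp

lemma sign_mul {s t : ℝ} (hs : s = 1 ∨ s = -1) (ht : t = 1 ∨ t = -1) :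
    s * t = 1 ∨ s * t = -1 := by
  rcases hs with rfl | rfl <;> rcases ht with rfl | rfl <;> norm_num

lemma sign_neg {s : ℝ} (hs : s = 1 ∨ s = -1) : -s = 1 ∨ -s = -1 := by
  rcases hs with rfl | rfl <;> norm_num

lemma sign_sq {s : ℝ} (hs : s = 1 ∨ s = -1) : s * s = 1 := by
  rcases hs with rfl | rfl <;> norm_num

/-- The prefix sum of a sequence on `Fin (n+1)` splits off its first term. -/
lemma prefix_cons {n : ℕ} (v : Fin (n + 1) → E2) (t : ℝ) (ε : Fin n → ℝ) (k : ℕ) :
    (∑ i : Fin (n + 1), if i.val < k + 1 then (Fin.cons t ε : Fin (n + 1) → ℝ) i • v i else 0)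
      = t • v 0 + ∑ i : Fin n, if i.val < k then ε i • v i.succ else 0 := by
  rw [Fin.sum_univ_succ]
  simp

/-- The two-pending-vectors invariant: two pending vectors of the disc and a sequence can be signed
so that all sums stay within `√3`. -/
lemma main_pending (N : ℕ) : ∀ (v : Fin N → E2) (w₁ w₂ : E2), (∀ i, ‖v i‖ ≤ 1) → ‖w₁‖ ≤ 1 → ‖w₂‖ ≤ 1 →
    ∃ (s₁ s₂ : ℝ) (ε : Fin N → ℝ), (s₁ = 1 ∨ s₁ = -1) ∧ (s₂ = 1 ∨ s₂ = -1) ∧
      (∀ i, ε i = 1 ∨ ε i = -1) ∧
      ∀ k : ℕ, k ≤ N → ‖s₁ • w₁ + s₂ • w₂ + ∑ i : Fin N, (if i.val < k then ε i • v i else 0)‖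
        ≤ Real.sqrt 3 := by
  induction N with
  | zero =>
    intro v w₁ w₂ _ h₁ h₂
    by_cases h : 1 ≤ ‖w₁ - w₂‖
    · refine ⟨1, 1, fun i => i.elim0, Or.inl rfl, Or.inl rfl, fun i => i.elim0, ?_⟩
      intro k _
      simpa using sqrt3_of_not_merge h₁ h₂ h
    · refine ⟨1, -1, fun i => i.elim0, Or.inl rfl, Or.inr rfl, fun i => i.elim0, ?_⟩
      intro k _
      have h' : ‖w₁ - w₂‖ < 1 := not_le.1 h
      have h3 : (1 : ℝ) ≤ Real.sqrt 3 := by
        rw [show (1 : ℝ) = Real.sqrt 1 by simp]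
        exact Real.sqrt_le_sqrt (by norm_num)
      simp only [one_smul, neg_smul, Finset.univ_eq_empty, Finset.sum_empty, add_zero]
      rw [← sub_eq_add_neg]
      linarith
  | succ n ih =>
    intro v w₁ w₂ hv h₁ h₂
    have htail : ∀ i : Fin n, ‖v i.succ‖ ≤ 1 := fun i => hv _
    have h3 : (1 : ℝ) ≤ Real.sqrt 3 := by
      rw [show (1 : ℝ) = Real.sqrt 1 by simp]
      exact Real.sqrt_le_sqrt (by norm_num)
    by_cases hm : Merge w₁ w₂
    · -- merge the two pending vectors
      obtain ⟨s, hs, hsn⟩ := hm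
      obtain ⟨s', t, ε', hs', ht, hε', hk⟩ :=
        ih (fun i => v i.succ) (w₁ + s • w₂) (v 0) htail hsn (hv 0)
      refine ⟨s', s' * s, Fin.cons t ε', hs', sign_mul hs' hs, ?_, ?_⟩
      · intro i
        refine Fin.cases ?_ (fun j => ?_) i
        · simpa using ht
        · simpa using hε' j
      · intro k hkN
        cases k with
        | zero =>
          have : s' • w₁ + (s' * s) • w₂ + (∑ i : Fin (n + 1),
              (if i.val < 0 then (Fin.cons t ε' : Fin (n + 1) → ℝ) i • v i else 0))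
              = s' • (w₁ + s • w₂) := by
            simp [smul_add, mul_smul]
          rw [this, norm_sign_smul s' hs']
          linarith
        | succ k =>
          rw [prefix_cons]
          have := hk k (by omega)
          have e : s' • w₁ + (s' * s) • w₂ + (t • v 0 +
              ∑ i : Fin n, if i.val < k then ε' i • v i.succ else 0)
              = s' • (w₁ + s • w₂) + t • v 0 +
              ∑ i : Fin n, if i.val < k then ε' i • v i.succ else 0 := by
            simp only [smul_add, mul_smul]; abel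
          rw [e]; exact this
    · -- two pending vectors not mergeable: merge the new vector with one of them
      have hk0 : ∀ (a b : ℝ), (a = 1 ∨ a = -1) → (b = 1 ∨ b = -1) →
          ‖a • w₁ + b • w₂‖ ≤ Real.sqrt 3 := by
        intro a b ha hb
        have hm' : 1 ≤ ‖w₁ - (a * b) • w₂‖ := by
          by_contra hlt
          apply hm
          refine ⟨-(a * b), sign_neg (sign_mul ha hb), ?_⟩
          rw [neg_smul, ← sub_eq_add_neg]
          exact le_of_lt (not_le.1 hlt)
        have hn2 : ‖(a * b) • w₂‖ ≤ 1 := by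
          rw [norm_sign_smul _ (sign_mul ha hb)]; exact h₂
        have := sqrt3_of_not_merge h₁ hn2 hm'
        have e : a • w₁ + b • w₂ = a • (w₁ + (a * b) • w₂) := by
          rw [smul_add, smul_smul, ← mul_assoc, sign_sq ha, one_mul]
        rw [e, norm_sign_smul a ha]
        exact this
      rcases three_merge w₁ w₂ (v 0) h₁ h₂ (hv 0) with h | h | h
      · exact absurd h hm
      · obtain ⟨s, hs, hsn⟩ := h
        obtain ⟨s', s₂, ε', hs', hs₂, hε', hk⟩ :=
          ih (fun i => v i.succ) (w₁ + s • v 0) w₂ htail hsn h₂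
        refine ⟨s', s₂, Fin.cons (s' * s) ε', hs', hs₂, ?_, ?_⟩
        · intro i
          refine Fin.cases ?_ (fun j => ?_) i
          · simpa using sign_mul hs' hs
          · simpa using hε' j
        · intro k hkN
          cases k with
          | zero =>
            have : s' • w₁ + s₂ • w₂ + (∑ i : Fin (n + 1),
                (if i.val < 0 then (Fin.cons (s' * s) ε' : Fin (n + 1) → ℝ) i • v i else 0))
                = s' • w₁ + s₂ • w₂ := by
              simp
            rw [this]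
            exact hk0 s' s₂ hs' hs₂
          | succ k =>
            rw [prefix_cons]
            have := hk k (by omega)
            have e : s' • w₁ + s₂ • w₂ + ((s' * s) • v 0 +
                ∑ i : Fin n, if i.val < k then ε' i • v i.succ else 0)
                = s' • (w₁ + s • v 0) + s₂ • w₂ +
                ∑ i : Fin n, if i.val < k then ε' i • v i.succ else 0 := by
              simp only [smul_add, mul_smul]; abel
            rw [e]; exact this
      · obtain ⟨s, hs, hsn⟩ := h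
        obtain ⟨s₁, s', ε', hs₁, hs', hε', hk⟩ :=
          ih (fun i => v i.succ) w₁ (w₂ + s • v 0) htail h₁ hsn
        refine ⟨s₁, s', Fin.cons (s' * s) ε', hs₁, hs', ?_, ?_⟩
        · intro i
          refine Fin.cases ?_ (fun j => ?_) i
          · simpa using sign_mul hs' hs
          · simpa using hε' j
        · intro k hkN
          cases k with
          | zero =>
            have : s₁ • w₁ + s' • w₂ + (∑ i : Fin (n + 1),
                (if i.val < 0 then (Fin.cons (s' * s) ε' : Fin (n + 1) → ℝ) i • v i else 0))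
                = s₁ • w₁ + s' • w₂ := by
              simp
            rw [this]
            exact hk0 s₁ s' hs₁ hs'
          | succ k =>
            rw [prefix_cons]
            have := hk k (by omega)
            have e : s₁ • w₁ + s' • w₂ + ((s' * s) • v 0 +
                ∑ i : Fin n, if i.val < k then ε' i • v i.succ else 0)
                = s₁ • w₁ + s' • (w₂ + s • v 0) +
                ∑ i : Fin n, if i.val < k then ε' i • v i.succ else 0 := by
              simp only [smul_add, mul_smul]; abel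
            rw [e]; exact this

/-- Upper bound: `σ(2) ≤ √3`. -/
theorem upper_two : SignedPrefixBound 2 (Real.sqrt 3) := by
  intro N v hv
  obtain ⟨s₁, s₂, ε, _, _, hε, hk⟩ := main_pending N v 0 0 hv (by simp) (by simp)
  refine ⟨ε, hε, fun k hkN => ?_⟩
  simpa using hk k hkN

end Vale.Agent.P262
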