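import Mathlib

/-!
# Elementary lemmas for the Euclidean Steinitz bound: randomized rounding, vertex reduction,
first-order conditions for the minimiser over the cube, and prefix bounds for lists.
-/

namespace Vale.Agent.P262.Steinitz

open Finset Module

variable {ι : Type} [DecidableEq ι]
variable {E : Type} [NormedAddCommGroup E] [InnerProductSpace ℝ E]

/-- The two-point variance identity behind randomized rounding. -/
lemma two_point (x w : E) (t : ℝ) :
    t * ‖x + (1 - t) • w‖ ^ 2 + (1 - t) * ‖x - t • w‖ ^ 2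
      = ‖x‖ ^ 2 + t * (1 - t) * ‖w‖ ^ 2 := by
  have h1 : ‖x + (1 - t) • w‖ ^ 2
      = ‖x‖ ^ 2 + 2 * (1 - t) * inner ℝ x w + (1 - t) ^ 2 * ‖w‖ ^ 2 := by
    rw [norm_add_sq_real, inner_smul_right, norm_smul, mul_pow, Real.norm_eq_abs, sq_abs]; ring
  have h2 : ‖x - t • w‖ ^ 2 = ‖x‖ ^ 2 - 2 * t * inner ℝ x w + t ^ 2 * ‖w‖ ^ 2 := by
    rw [norm_sub_sq_real, inner_smul_right, norm_smul, mul_pow, Real.norm_eq_abs, sq_abs]; ring
  rw [h1, h2]; ring

/-- Derandomized rounding: a fractional point `y` of the cube can be rounded to a subset `J`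
respecting the integral coordinates, with the variance bound on the resulting error. -/
lemma rounding (w : ι → E) (y : ι → ℝ) (hy0 : ∀ i, 0 ≤ y i) (hy1 : ∀ i, y i ≤ 1) (s : Finset ι) :
    ∀ x : E, ∃ J : Finset ι, J ⊆ s ∧ (∀ i ∈ J, 0 < y i) ∧ (∀ i ∈ s, i ∉ J → y i < 1) ∧
      ‖x + ∑ i ∈ J, w i - ∑ i ∈ s, y i • w i‖ ^ 2
        ≤ ‖x‖ ^ 2 + ∑ i ∈ s, y i * (1 - y i) * ‖w i‖ ^ 2 := by
  induction s using Finset.induction_on with
  | empty => intro x; exact ⟨∅, by simp, by simp, by simp, by simp⟩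
  | insert a s ha ih =>
    intro x
    have key : (0 < y a ∧ ‖x + (1 - y a) • w a‖ ^ 2 ≤ ‖x‖ ^ 2 + y a * (1 - y a) * ‖w a‖ ^ 2) ∨
        (y a < 1 ∧ ‖x - y a • w a‖ ^ 2 ≤ ‖x‖ ^ 2 + y a * (1 - y a) * ‖w a‖ ^ 2) := by
      by_contra hc
      push Not at hc
      obtain ⟨h1, h2⟩ := hc
      have hid := two_point x (w a) (y a)
      rcases (hy0 a).eq_or_lt with h0 | h0
      · have h3 := h2 (by rw [← h0]; norm_num)
        rw [← h0] at h3
        simp at h3
      · rcases (hy1 a).eq_or_lt with h3 | h3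
        · have h4 := h1 h0
          rw [h3] at h4
          simp at h4
        · have p := h1 h0
          have q := h2 h3
          have p' := mul_lt_mul_of_pos_left p h0
          have q' := mul_lt_mul_of_pos_left q (sub_pos.2 h3)
          nlinarith
    rcases key with ⟨ht, hb⟩ | ⟨ht, hb⟩
    · obtain ⟨J, hJs, hJ0, hJ1, hJb⟩ := ih (x + (1 - y a) • w a)
      have haJ : a ∉ J := fun h => ha (hJs h)
      refine ⟨insert a J, insert_subset_insert a hJs, ?_, ?_, ?_⟩
      · intro i hi
        rcases mem_insert.1 hi with rfl | hi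
        · exact ht
        · exact hJ0 i hi
      · intro i hi hiJ
        rcases mem_insert.1 hi with rfl | hi
        · exact absurd (mem_insert_self _ _) hiJ
        · exact hJ1 i hi (fun h => hiJ (mem_insert_of_mem h))
      · rw [sum_insert haJ, sum_insert ha, sum_insert ha]
        have e : x + (w a + ∑ i ∈ J, w i) - (y a • w a + ∑ i ∈ s, y i • w i)
            = x + (1 - y a) • w a + ∑ i ∈ J, w i - ∑ i ∈ s, y i • w i := by
          rw [sub_smul, one_smul]; abel
        rw [e]
        linarith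
    · obtain ⟨J, hJs, hJ0, hJ1, hJb⟩ := ih (x - y a • w a)
      refine ⟨J, hJs.trans (subset_insert _ _), hJ0, ?_, ?_⟩
      · intro i hi hiJ
        rcases mem_insert.1 hi with rfl | hi
        · exact ht
        · exact hJ1 i hi hiJ
      · rw [sum_insert ha, sum_insert ha]
        have e : x + (∑ i ∈ J, w i) - (y a • w a + ∑ i ∈ s, y i • w i)
            = x - y a • w a + ∑ i ∈ J, w i - ∑ i ∈ s, y i • w i := by
          abel
        rw [e]
        linarith

/-- The number of fractional coordinates of `y` in `s`. -/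
noncomputable def fracSet (s : Finset ι) (y : ι → ℝ) : Finset ι :=
  s.filter (fun i => 0 < y i ∧ y i < 1)

lemma energy_le (w : ι → E) (y : ι → ℝ) (hy0 : ∀ i, 0 ≤ y i) (hy1 : ∀ i, y i ≤ 1)
    (hw : ∀ i, ‖w i‖ ≤ 1) (s : Finset ι) :
    ∑ i ∈ s, y i * (1 - y i) * ‖w i‖ ^ 2 ≤ ((fracSet s y).card : ℝ) / 4 := by
  classical
  calc ∑ i ∈ s, y i * (1 - y i) * ‖w i‖ ^ 2
      ≤ ∑ i ∈ s, if (0 < y i ∧ y i < 1) then (1 / 4 : ℝ) else 0 := by
        apply sum_le_sum
        intro i _
        have h2 : ‖w i‖ ^ 2 ≤ 1 := by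
          have := hw i
          have h0 := norm_nonneg (w i)
          nlinarith
        have h3 : 0 ≤ ‖w i‖ ^ 2 := by positivity
        split_ifs with h
        · have h4 : y i * (1 - y i) ≤ 1 / 4 := by nlinarith [sq_nonneg (y i - 1 / 2)]
          have h5 : 0 ≤ y i * (1 - y i) := mul_nonneg (hy0 i) (by linarith [hy1 i])
          nlinarith
        · have h6 : y i = 0 ∨ y i = 1 := by
            by_contra hc
            push Not at hc
            exact h ⟨lt_of_le_of_ne (hy0 i) (Ne.symm hc.1), lt_of_le_of_ne (hy1 i) hc.2⟩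
          rcases h6 with h6 | h6 <;> simp [h6]
    _ = ((fracSet s y).card : ℝ) / 4 := by
        rw [← sum_filter, sum_const, nsmul_eq_mul]
        simp only [fracSet]
        ring

/-- Vertex reduction: any point of the cube can be moved, without changing `∑ yᵢ vᵢ`, to a point
with at most `finrank E` fractional coordinates. -/
lemma vertex_reduce [FiniteDimensional ℝ E] (v : ι → E) (s : Finset ι) :
    ∀ (n : ℕ) (y : ι → ℝ), (∀ i, 0 ≤ y i) → (∀ i, y i ≤ 1) → (fracSet s y).card = n →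
      ∃ z : ι → ℝ, (∀ i, 0 ≤ z i) ∧ (∀ i, z i ≤ 1) ∧ ∑ i ∈ s, z i • v i = ∑ i ∈ s, y i • v i ∧
        (fracSet s z).card ≤ finrank ℝ E := by
  intro n
  induction n using Nat.strong_induction_on with
  | _ n ih =>
    intro y hy0 hy1 hn
    by_cases hle : n ≤ finrank ℝ E
    · exact ⟨y, hy0, hy1, rfl, hn ▸ hle⟩
    push Not at hle
    set T := fracSet s y with hT
    have hdep : ¬ LinearIndepOn ℝ v (T : Set ι) := by
      intro hli
      have h1 : LinearIndependent ℝ (fun x : (T : Set ι) => v x) := hli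
      have h2 := h1.fintype_card_le_finrank
      simp only [Fintype.card_coe, coe_sort_coe] at h2
      omega
    rw [linearIndepOn_finset_iff] at hdep
    push Not at hdep
    obtain ⟨c, hc0, j, hjT, hcj⟩ := hdep
    have hTmem : ∀ i ∈ T, i ∈ s ∧ 0 < y i ∧ y i < 1 := by
      intro i hi
      simpa [hT, fracSet] using hi
    set g : ι → ℝ := fun i => if 0 < c i then (1 - y i) / c i else y i / (- c i) with hg
    obtain ⟨k, hk, hkmin⟩ := (T.filter (fun i => c i ≠ 0)).exists_min_image g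
      ⟨j, mem_filter.2 ⟨hjT, hcj⟩⟩
    have hkT : k ∈ T := (mem_filter.1 hk).1
    have hck : c k ≠ 0 := (mem_filter.1 hk).2
    have hmin : ∀ i ∈ T, c i ≠ 0 → g k ≤ g i := fun i hi hci => hkmin i (mem_filter.2 ⟨hi, hci⟩)
    have hgpos : ∀ i ∈ T, c i ≠ 0 → 0 < g i := by
      intro i hi hci
      obtain ⟨_, h0, h1⟩ := hTmem i hi
      simp only [hg]
      split_ifs with h
      · exact div_pos (by linarith) h
      · have : c i < 0 := lt_of_le_of_ne (not_lt.1 h) hci
        exact div_pos h0 (by linarith)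
    set t := g k with ht
    have htpos : 0 < t := hgpos k hkT hck
    set c' : ι → ℝ := fun i => if i ∈ T then c i else 0 with hc'
    set z : ι → ℝ := fun i => y i + t * c' i with hz
    -- bounds on `z`
    have hzbd : ∀ i, 0 ≤ z i ∧ z i ≤ 1 := by
      intro i
      simp only [hz, hc']
      by_cases hi : i ∈ T
      · rw [if_pos hi]
        obtain ⟨_, h0, h1⟩ := hTmem i hi
        by_cases hci : c i = 0
        · rw [hci]; simp; exact ⟨hy0 i, hy1 i⟩
        · have hle := hmin i hi hci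
          simp only [hg] at hle
          by_cases hcpos : 0 < c i
          · rw [if_pos hcpos] at hle
            have h2 : t * c i ≤ 1 - y i := by
              rwa [le_div_iff₀ hcpos] at hle
            have h3 : 0 < t * c i := mul_pos htpos hcpos
            constructor <;> linarith
          · rw [if_neg hcpos] at hle
            have hcneg : c i < 0 := lt_of_le_of_ne (not_lt.1 hcpos) hci
            have h2 : t * (- c i) ≤ y i := by
              rwa [le_div_iff₀ (by linarith)] at hle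
            have h3 : 0 < t * (- c i) := mul_pos htpos (by linarith)
            constructor <;> nlinarith
      · rw [if_neg hi]; simp; exact ⟨hy0 i, hy1 i⟩
    -- the sum is unchanged
    have hsum : ∑ i ∈ s, z i • v i = ∑ i ∈ s, y i • v i := by
      have hTs : T ⊆ s := fun i hi => (hTmem i hi).1
      have h1 : ∑ i ∈ s, c' i • v i = ∑ i ∈ T, c i • v i := by
        simp only [hc', ite_smul, zero_smul]
        rw [sum_ite_mem, inter_eq_right.2 hTs]
      simp only [hz, add_smul, sum_add_distrib, mul_smul]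
      rw [← smul_sum, h1, hc0, smul_zero, add_zero]
    -- the number of fractional coordinates drops
    have hlt : (fracSet s z).card < n := by
      rw [← hn]
      apply card_lt_card
      rw [ssubset_iff_of_subset]
      · refine ⟨k, hkT, ?_⟩
        intro hk'
        have hk2 : 0 < z k ∧ z k < 1 := by
          simpa [fracSet] using (mem_filter.1 hk').2
        have hzk : z k = y k + t * c k := by simp only [hz, hc', if_pos hkT]
        obtain ⟨_, h0, h1⟩ := hTmem k hkT
        by_cases hcpos : 0 < c k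
        · have : t = (1 - y k) / c k := by simp only [ht, hg, if_pos hcpos]
          have h4 : t * c k = 1 - y k := by rw [this]; field_simp
          rw [hzk, h4] at hk2
          linarith [hk2.2]
        · have hcneg : c k < 0 := lt_of_le_of_ne (not_lt.1 hcpos) hck
          have : t = y k / (- c k) := by simp only [ht, hg, if_neg hcpos]
          have h4 : t * (- c k) = y k := by
            rw [this]
            have : - c k ≠ 0 := by linarith
            field_simp
          rw [hzk] at hk2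
          nlinarith [hk2.1]
      · intro i hi
        obtain ⟨his, hi2⟩ := mem_filter.1 hi
        rw [hT]
        by_contra hiT
        have hiT' : i ∉ T := hiT
        have hzi : z i = y i := by simp only [hz, hc', if_neg hiT']; simp
        rw [hzi] at hi2
        exact hiT (mem_filter.2 ⟨his, hi2⟩)
    obtain ⟨z', h1, h2, h3, h4⟩ := ih _ hlt z (fun i => (hzbd i).1) (fun i => (hzbd i).2) rfl
    exact ⟨z', h1, h2, h3.trans hsum, h4⟩

/-- A minimiser of `‖A + ∑ yᵢ vᵢ‖` over the cube with at most `finrank E` fractional coordinates. -/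
lemma exists_minimizer [Fintype ι] [FiniteDimensional ℝ E] (v : ι → E) (s : Finset ι) (A : E) :
    ∃ y : ι → ℝ, (∀ i, 0 ≤ y i) ∧ (∀ i, y i ≤ 1) ∧
      (∀ z : ι → ℝ, (∀ i, 0 ≤ z i) → (∀ i, z i ≤ 1) →
        ‖A + ∑ i ∈ s, y i • v i‖ ≤ ‖A + ∑ i ∈ s, z i • v i‖) ∧
      (fracSet s y).card ≤ finrank ℝ E := by
  have hcomp : IsCompact (Set.pi Set.univ (fun _ : ι => Set.Icc (0 : ℝ) 1)) :=
    isCompact_univ_pi (fun _ => isCompact_Icc)
  have hne : (Set.pi Set.univ (fun _ : ι => Set.Icc (0 : ℝ) 1)).Nonempty :=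
    ⟨fun _ => 0, fun _ _ => by simp⟩
  have hcont : Continuous (fun y : ι → ℝ => ‖A + ∑ i ∈ s, y i • v i‖) := by fun_prop
  obtain ⟨y, hy, hmin⟩ := hcomp.exists_isMinOn hne hcont.continuousOn
  have hy0 : ∀ i, 0 ≤ y i := fun i => (hy i (Set.mem_univ i)).1
  have hy1 : ∀ i, y i ≤ 1 := fun i => (hy i (Set.mem_univ i)).2
  obtain ⟨z, hz0, hz1, hzs, hzc⟩ := vertex_reduce v s _ y hy0 hy1 rfl
  refine ⟨z, hz0, hz1, ?_, hzc⟩
  intro w hw0 hw1
  rw [hzs]
  exact hmin (fun i _ => ⟨hw0 i, hw1 i⟩)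

section KKT

variable (v : ι → E) (hv : ∀ i, ‖v i‖ ≤ 1) (s : Finset ι) (A : E) (y : ι → ℝ)
  (hy0 : ∀ i, 0 ≤ y i) (hy1 : ∀ i, y i ≤ 1)
  (hmin : ∀ z : ι → ℝ, (∀ i, 0 ≤ z i) → (∀ i, z i ≤ 1) →
    ‖A + ∑ i ∈ s, y i • v i‖ ≤ ‖A + ∑ i ∈ s, z i • v i‖)

include hv hy0 hy1 hmin

lemma kkt_up {i : ι} (hi : i ∈ s) (h : y i < 1) :
    0 ≤ inner ℝ (A + ∑ j ∈ s, y j • v j) (v i) := by
  by_contra hc
  push Not at hc
  set M := A + ∑ j ∈ s, y j • v j with hM
  set c := inner ℝ M (v i) with hcdef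
  set ε := min (1 - y i) (-c) with hε
  have hεpos : 0 < ε := lt_min (by linarith) (by linarith)
  have hε1 : ε ≤ 1 - y i := min_le_left _ _
  have hε2 : ε ≤ -c := min_le_right _ _
  set z : ι → ℝ := fun j => y j + if j = i then ε else 0 with hz
  have hz0 : ∀ j, 0 ≤ z j := by
    intro j
    simp only [hz]
    split_ifs
    · linarith [hy0 j]
    · linarith [hy0 j]
  have hz1 : ∀ j, z j ≤ 1 := by
    intro j
    simp only [hz]
    split_ifs with hj
    · rw [hj]; linarith
    · linarith [hy1 j]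
  have hsum : A + ∑ j ∈ s, z j • v j = M + ε • v i := by
    simp only [hz, add_smul, sum_add_distrib, ite_smul, zero_smul, sum_ite_eq', if_pos hi, hM,
      add_assoc]
  have h1 := hmin z hz0 hz1
  rw [hsum] at h1
  have h2 : ‖M‖ ^ 2 ≤ ‖M + ε • v i‖ ^ 2 := by
    gcongr
  have h2' : ‖M + ε • v i‖ ^ 2 = ‖M‖ ^ 2 + 2 * (ε * c) + ε ^ 2 * ‖v i‖ ^ 2 := by
    rw [norm_add_sq_real M, inner_smul_right, norm_smul, mul_pow, Real.norm_eq_abs, sq_abs]
  have h3 : ‖v i‖ ^ 2 ≤ 1 := by
    have := hv i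
    have h0 := norm_nonneg (v i)
    nlinarith
  have h4 : ε ^ 2 * ‖v i‖ ^ 2 ≤ ε ^ 2 := by nlinarith [sq_nonneg ε]
  have h5 : ε ^ 2 ≤ ε * (-c) := by nlinarith
  nlinarith

lemma kkt_down {i : ι} (hi : i ∈ s) (h : 0 < y i) :
    inner ℝ (A + ∑ j ∈ s, y j • v j) (v i) ≤ 0 := by
  by_contra hc
  push Not at hc
  set M := A + ∑ j ∈ s, y j • v j with hM
  set c := inner ℝ M (v i) with hcdef
  set ε := min (y i) c with hε
  have hεpos : 0 < ε := lt_min h hc
  have hε1 : ε ≤ y i := min_le_left _ _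
  have hε2 : ε ≤ c := min_le_right _ _
  set z : ι → ℝ := fun j => y j + if j = i then -ε else 0 with hz
  have hz0 : ∀ j, 0 ≤ z j := by
    intro j
    simp only [hz]
    split_ifs with hj
    · rw [hj]; linarith
    · linarith [hy0 j]
  have hz1 : ∀ j, z j ≤ 1 := by
    intro j
    simp only [hz]
    split_ifs
    · linarith [hy1 j]
    · linarith [hy1 j]
  have hsum : A + ∑ j ∈ s, z j • v j = M + (-ε) • v i := by
    simp only [hz, add_smul, sum_add_distrib, ite_smul, zero_smul, sum_ite_eq', if_pos hi, hM,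
      add_assoc]
  have h1 := hmin z hz0 hz1
  rw [hsum] at h1
  have h2 : ‖M‖ ^ 2 ≤ ‖M + (-ε) • v i‖ ^ 2 := by
    gcongr
  have h2' : ‖M + (-ε) • v i‖ ^ 2 = ‖M‖ ^ 2 + 2 * ((-ε) * c) + (-ε) ^ 2 * ‖v i‖ ^ 2 := by
    rw [norm_add_sq_real M, inner_smul_right, norm_smul, mul_pow, Real.norm_eq_abs, sq_abs]
  have h3 : ‖v i‖ ^ 2 ≤ 1 := by
    have := hv i
    have h0 := norm_nonneg (v i)
    nlinarith
  have h4 : (-ε) ^ 2 * ‖v i‖ ^ 2 ≤ (-ε) ^ 2 := by nlinarith [sq_nonneg ε]
  have h5 : (-ε) ^ 2 ≤ ε * c := by nlinarith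
  nlinarith

end KKT

/-- Prefix bound: every prefix of `l`, started at `A`, has squared norm at most `C`. -/
def PB (v : ι → E) (A : E) (l : List ι) (C : ℝ) : Prop :=
  ∀ k : ℕ, ‖A + ((l.take k).map v).sum‖ ^ 2 ≤ C

lemma PB.append {v : ι → E} {A : E} {l₁ l₂ : List ι} {C : ℝ} (h₁ : PB v A l₁ C)
    (h₂ : PB v (A + (l₁.map v).sum) l₂ C) : PB v A (l₁ ++ l₂) C := by
  intro k
  rw [List.take_append, List.map_append, List.sum_append]
  by_cases hk : k ≤ l₁.length
  · have : k - l₁.length = 0 := by omega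
    rw [this]
    simpa using h₁ k
  · have : l₁.take k = l₁ := List.take_of_length_le (by omega)
    rw [this, ← add_assoc]
    exact h₂ _

lemma PB.cons {v : ι → E} {A : E} {i : ι} {l : List ι} {C : ℝ} (h₀ : ‖A‖ ^ 2 ≤ C)
    (h : PB v (A + v i) l C) : PB v A (i :: l) C := by
  intro k
  cases k with
  | zero => simpa using h₀
  | succ k =>
    have := h k
    simpa [add_assoc] using this

lemma PB.snoc {v : ι → E} {A : E} {i : ι} {l : List ι} {C : ℝ}
    (h : PB v A l C) (h₀ : ‖A + (l.map v).sum + v i‖ ^ 2 ≤ C) : PB v A (l ++ [i]) C := by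
  apply PB.append h
  intro k
  cases k with
  | zero =>
    have := h l.length
    rw [List.take_length] at this
    simpa using this
  | succ k => simpa using h₀

lemma sum_map_eq {v : ι → E} {l : List ι} {s : Finset ι} (hl : l.Nodup) (hs : l.toFinset = s) :
    (l.map v).sum = ∑ i ∈ s, v i := by
  rw [← hs, List.sum_toFinset _ hl]

/-- Combining two orderings of a partition. -/
lemma order_append {l₁ l₂ : List ι} {J s : Finset ι} (hJ : J ⊆ s)
    (h₁ : l₁.Nodup) (h₁' : l₁.toFinset = J) (h₂ : l₂.Nodup) (h₂' : l₂.toFinset = s \ J) :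
    (l₁ ++ l₂).Nodup ∧ (l₁ ++ l₂).toFinset = s := by
  constructor
  · rw [List.nodup_append']
    refine ⟨h₁, h₂, ?_⟩
    rw [List.disjoint_iff_ne]
    intro a ha b hb hab
    subst hab
    have h3 : a ∈ J := by rw [← h₁']; exact List.mem_toFinset.2 ha
    have h4 : a ∈ s \ J := by rw [← h₂']; exact List.mem_toFinset.2 hb
    exact (mem_sdiff.1 h4).2 h3
  · rw [List.toFinset_append, h₁', h₂']
    exact union_sdiff_of_subset hJ

lemma sum_sdiff_add {v : ι → E} {J s : Finset ι} (hJ : J ⊆ s) (A : E) :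
    A + ∑ i ∈ J, v i + ∑ i ∈ s \ J, v i = A + ∑ i ∈ s, v i := by
  rw [add_assoc, add_comm (∑ i ∈ J, v i), sum_sdiff hJ]

end Vale.Agent.P262.Steinitz
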