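import Vale.Agent.P262.SteinitzBasic

/-!
# The induction on the dimension for the Euclidean Steinitz bound

`Core d`: in dimension `d`, a family of vectors in the unit ball, a start `A` and an end `B` of
squared norm at most `ell d = (d + 8) / 4` can be ordered so that all partial sums have squared norm
at most `Lam d = (d² + 17 d) / 8`.
-/

namespace Vale.Agent.P262.Steinitz

open Finset Module

/-- The admissible squared norm of the end points. -/
noncomputable def ell (r : ℕ) : ℝ := ((r : ℝ) + 8) / 4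

/-- The squared norm bound obtained for all partial sums. -/
noncomputable def Lam (r : ℕ) : ℝ := ((r : ℝ) ^ 2 + 17 * r) / 8

lemma Lam_succ (d : ℕ) : Lam (d + 1) = Lam d + ell (d + 1) := by
  simp only [Lam, ell]; push_cast; ring

lemma ell_succ (d : ℕ) : ell (d + 1) = ell d + 1 / 4 := by
  simp only [ell]; push_cast; ring

lemma Lam_nonneg (d : ℕ) : 0 ≤ Lam d := by
  simp only [Lam]; positivity

lemma ell_le_Lam (d : ℕ) : ell (d + 1) ≤ Lam (d + 1) := by
  rw [Lam_succ]; linarith [Lam_nonneg d]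

variable {ι : Type} [DecidableEq ι]

/-- The statement proved by induction on the dimension. -/
def Core (ι : Type) [DecidableEq ι] (d : ℕ) : Prop :=
  ∀ (E : Type) [NormedAddCommGroup E] [InnerProductSpace ℝ E] [FiniteDimensional ℝ E],
    finrank ℝ E = d → ∀ (v : ι → E), (∀ i, ‖v i‖ ≤ 1) → ∀ (s : Finset ι) (A : E),
      ‖A‖ ^ 2 ≤ ell d → ‖A + ∑ i ∈ s, v i‖ ^ 2 ≤ ell d →
      ∃ l : List ι, l.Nodup ∧ l.toFinset = s ∧ PB v A l (Lam d)

lemma core_zero : Core ι 0 := by
  intro E _ _ _ hE v _ s A _ _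
  have hsub : Subsingleton E := finrank_zero_iff.1 hE
  refine ⟨s.toList, s.nodup_toList, s.toList_toFinset, ?_⟩
  intro k
  have : A + ((s.toList.take k).map v).sum = 0 := Subsingleton.elim _ _
  rw [this]
  simp [Lam]

section Perp

variable {E : Type} [NormedAddCommGroup E] [InnerProductSpace ℝ E]

/-- The orthogonal projection onto the orthogonal complement of a unit vector. -/
noncomputable def perp (u : E) (hu : ‖u‖ = 1) : E →ₗ[ℝ] (Submodule.span ℝ {u})ᗮ :=
  LinearMap.codRestrict _ (LinearMap.id - (innerₛₗ ℝ u).smulRight u) (by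
    intro x
    rw [Submodule.mem_orthogonal_singleton_iff_inner_right]
    simp [inner_sub_right, inner_smul_right, hu])

lemma perp_coe (u : E) (hu : ‖u‖ = 1) (x : E) :
    ((perp u hu x : (Submodule.span ℝ {u})ᗮ) : E) = x - inner ℝ u x • u := by
  simp [perp]

lemma perp_norm (u : E) (hu : ‖u‖ = 1) (x : E) :
    ‖perp u hu x‖ ^ 2 = ‖x‖ ^ 2 - (inner ℝ u x) ^ 2 := by
  rw [Submodule.coe_norm, perp_coe, norm_sub_sq_real, inner_smul_right, norm_smul, mul_pow,
    Real.norm_eq_abs, sq_abs, hu, real_inner_comm]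
  ring

lemma perp_norm_le (u : E) (hu : ‖u‖ = 1) (x : E) : ‖perp u hu x‖ ≤ ‖x‖ := by
  have h := perp_norm u hu x
  have h2 : ‖perp u hu x‖ ^ 2 ≤ ‖x‖ ^ 2 := by nlinarith [sq_nonneg (inner ℝ u x)]
  exact (pow_le_pow_iff_left₀ (norm_nonneg _) (norm_nonneg _) (by norm_num)).1 h2

lemma inner_sq_le (u : E) (hu : ‖u‖ = 1) (x : E) : (inner ℝ u x) ^ 2 ≤ ‖x‖ ^ 2 := by
  have h := perp_norm u hu x
  nlinarith [sq_nonneg ‖perp u hu x‖]

lemma perp_list_sum (u : E) (hu : ‖u‖ = 1) (v : ι → E) (l : List ι) :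
    perp u hu ((l.map v).sum) = (l.map (fun i => perp u hu (v i))).sum := by
  induction l with
  | nil => simp
  | cons a t ih => simp [ih]

lemma inner_list_sum (u : E) (v : ι → E) (l : List ι) :
    inner ℝ u ((l.map v).sum) = (l.map (fun i => inner ℝ u (v i))).sum := by
  induction l with
  | nil => simp
  | cons a t ih => simp [ih, inner_add_right]

lemma PB_lift {d : ℕ} {u : E} (hu : ‖u‖ = 1) {v : ι → E} {A : E} {l : List ι}
    (hP : PB (fun i => perp u hu (v i)) (perp u hu A) l (Lam d))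
    (hφ : ∀ k, (inner ℝ u (A + ((l.take k).map v).sum)) ^ 2 ≤ ell (d + 1)) :
    PB v A l (Lam (d + 1)) := by
  intro k
  have h1 := hP k
  have h2 := hφ k
  rw [← perp_list_sum, ← map_add, perp_norm] at h1
  rw [Lam_succ]
  linarith

lemma list_sum_nonpos {L : List ℝ} (h : ∀ x ∈ L, x ≤ 0) : L.sum ≤ 0 := by
  induction L with
  | nil => simp
  | cons a t ih =>
    rw [List.sum_cons]
    have h1 := h a (List.mem_cons_self)
    have h2 := ih (fun x hx => h x (List.mem_cons_of_mem a hx))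
    linarith

lemma take_sum_nonpos {L : List ℝ} (h : ∀ x ∈ L, x ≤ 0) (k : ℕ) :
    L.sum ≤ (L.take k).sum ∧ (L.take k).sum ≤ 0 := by
  have h1 : (L.take k).sum + (L.drop k).sum = L.sum := by
    rw [← List.sum_append, List.take_append_drop]
  have h2 : (L.take k).sum ≤ 0 := list_sum_nonpos (fun x hx => h x (List.mem_of_mem_take hx))
  have h3 : (L.drop k).sum ≤ 0 := list_sum_nonpos (fun x hx => h x (List.mem_of_mem_drop hx))
  exact ⟨by linarith, h2⟩

lemma take_sum_nonneg {L : List ℝ} (h : ∀ x ∈ L, 0 ≤ x) (k : ℕ) :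
    (L.take k).sum ≤ L.sum ∧ 0 ≤ (L.take k).sum := by
  have h1 : (L.take k).sum + (L.drop k).sum = L.sum := by
    rw [← List.sum_append, List.take_append_drop]
  have h2 : 0 ≤ (L.take k).sum := List.sum_nonneg (fun x hx => h x (List.mem_of_mem_take hx))
  have h3 : 0 ≤ (L.drop k).sum := List.sum_nonneg (fun x hx => h x (List.mem_of_mem_drop hx))
  exact ⟨by linarith, h2⟩

end Perp

section Step

variable {E : Type} [NormedAddCommGroup E] [InnerProductSpace ℝ E] [FiniteDimensional ℝ E]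

/-- The flat step: if the rounding point `A + ∑_J v` lies at nonnegative height above the
hyperplane `u^⊥`, `u` decreases along `J` and increases along `s \ J`, then the problem projects
to `u^⊥`. -/
lemma flat {d : ℕ} (IH : Core ι d) (hd : finrank ℝ E = d + 1) {v : ι → E} (hv : ∀ i, ‖v i‖ ≤ 1)
    {s J : Finset ι} (hJ : J ⊆ s) {A u : E} (hu : ‖u‖ = 1)
    (hJneg : ∀ i ∈ J, inner ℝ u (v i) ≤ 0) (hJpos : ∀ i ∈ s \ J, 0 ≤ inner ℝ u (v i))
    (hm : 0 ≤ inner ℝ u (A + ∑ i ∈ J, v i))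
    (hPA : ‖perp u hu A‖ ^ 2 ≤ ell d)
    (hPM : ‖perp u hu (A + ∑ i ∈ J, v i)‖ ^ 2 ≤ ell d)
    (hPB : ‖perp u hu (A + ∑ i ∈ s, v i)‖ ^ 2 ≤ ell d)
    (hA : (inner ℝ u A) ^ 2 ≤ ell (d + 1)) (hB : (inner ℝ u (A + ∑ i ∈ s, v i)) ^ 2 ≤ ell (d + 1)) :
    ∃ l : List ι, l.Nodup ∧ l.toFinset = s ∧ PB v A l (Lam (d + 1)) := by
  have hne : u ≠ 0 := by
    intro h; rw [h, norm_zero] at hu; exact zero_ne_one hu
  have : Fact (finrank ℝ E = d + 1) := ⟨hd⟩
  have hF : finrank ℝ (Submodule.span ℝ {u})ᗮ = d :=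
    Submodule.finrank_orthogonal_span_singleton hne
  set P := perp u hu with hP
  set w : ι → (Submodule.span ℝ {u})ᗮ := fun i => P (v i) with hw
  have hw1 : ∀ i, ‖w i‖ ≤ 1 := fun i => (perp_norm_le u hu (v i)).trans (hv i)
  have hsumw : ∀ (X : E) (T : Finset ι), P X + ∑ i ∈ T, w i = P (X + ∑ i ∈ T, v i) := by
    intro X T
    rw [map_add, map_sum]
  obtain ⟨l₁, h1n, h1s, h1b⟩ := IH _ hF w hw1 J (P A) hPA (by rw [hsumw]; exact hPM)
  obtain ⟨l₂, h2n, h2s, h2b⟩ := IH _ hF w hw1 (s \ J) (P (A + ∑ i ∈ J, v i)) hPM (by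
    rw [hsumw, sum_sdiff_add hJ]; exact hPB)
  obtain ⟨hn, hs⟩ := order_append hJ h1n h1s h2n h2s
  refine ⟨l₁ ++ l₂, hn, hs, ?_⟩
  have hsum1 : (l₁.map v).sum = ∑ i ∈ J, v i := sum_map_eq h1n h1s
  have hsum2 : (l₂.map v).sum = ∑ i ∈ s \ J, v i := sum_map_eq h2n h2s
  apply PB.append
  · apply PB_lift hu h1b
    intro k
    have hL : ∀ x ∈ l₁.map (fun i => inner ℝ u (v i)), x ≤ 0 := by
      intro x hx
      obtain ⟨i, hi, rfl⟩ := List.mem_map.1 hx
      exact hJneg i (by rw [← h1s]; exact List.mem_toFinset.2 hi)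
    obtain ⟨h3, h4⟩ := take_sum_nonpos hL k
    have e1 : inner ℝ u (A + ((l₁.take k).map v).sum)
        = inner ℝ u A + ((l₁.map (fun i => inner ℝ u (v i))).take k).sum := by
      rw [inner_add_right, inner_list_sum, List.map_take]
    have e2 : inner ℝ u (A + ∑ i ∈ J, v i)
        = inner ℝ u A + (l₁.map (fun i => inner ℝ u (v i))).sum := by
      rw [inner_add_right, ← hsum1, inner_list_sum]
    rw [e1]
    rw [e2] at hm
    have h5 : (inner ℝ u A + ((l₁.map (fun i => inner ℝ u (v i))).take k).sum) ^ 2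
        ≤ (inner ℝ u A) ^ 2 := by
      apply pow_le_pow_left₀ <;> linarith
    linarith
  · rw [hsum1]
    apply PB_lift hu h2b
    intro k
    have hL : ∀ x ∈ l₂.map (fun i => inner ℝ u (v i)), 0 ≤ x := by
      intro x hx
      obtain ⟨i, hi, rfl⟩ := List.mem_map.1 hx
      exact hJpos i (by rw [← h2s]; exact List.mem_toFinset.2 hi)
    obtain ⟨h3, h4⟩ := take_sum_nonneg hL k
    set M := A + ∑ i ∈ J, v i with hMdef
    have e1 : inner ℝ u (M + ((l₂.take k).map v).sum)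
        = inner ℝ u M + ((l₂.map (fun i => inner ℝ u (v i))).take k).sum := by
      rw [inner_add_right, inner_list_sum, List.map_take]
    have e2 : inner ℝ u (A + ∑ i ∈ s, v i)
        = inner ℝ u M + (l₂.map (fun i => inner ℝ u (v i))).sum := by
      rw [← sum_sdiff_add hJ (v := v) A, inner_add_right, ← hsum2, inner_list_sum]
    rw [e1]
    rw [e2] at hB
    have h5 : (inner ℝ u M + ((l₂.map (fun i => inner ℝ u (v i))).take k).sum) ^ 2
        ≤ (inner ℝ u M + (l₂.map (fun i => inner ℝ u (v i))).sum) ^ 2 := by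
      apply pow_le_pow_left₀ <;> linarith
    linarith

/-- The escape step: from a point `X` with `‖X‖² ≤ (d + 2) / 4` some vector of the family moves to
squared norm at most `ell (d + 1)`, provided a nonnegative combination of the family brings `X`
into the ball of radius `1 / 2`. -/
lemma escape {d : ℕ} {X : E} {w : ι → E} (hw : ∀ i, ‖w i‖ ≤ 1) {s : Finset ι} (hs : s.Nonempty)
    {c : ι → ℝ} (hc : ∀ i, 0 ≤ c i) (hX : ‖X‖ ^ 2 ≤ ((d : ℝ) + 2) / 4)
    (hm : ‖X + ∑ i ∈ s, c i • w i‖ < 1 / 2) :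
    ∃ i ∈ s, ‖X + w i‖ ^ 2 ≤ ell (d + 1) := by
  obtain ⟨i, hi, hmin⟩ := s.exists_min_image (fun i => inner ℝ X (w i)) hs
  refine ⟨i, hi, ?_⟩
  have hw2 : ‖w i‖ ^ 2 ≤ 1 := by
    have := hw i
    have h0 := norm_nonneg (w i)
    nlinarith
  have hd : (0 : ℝ) ≤ d := Nat.cast_nonneg d
  have hell : ell (d + 1) = ((d : ℝ) + 9) / 4 := by
    simp only [ell]; push_cast; ring
  by_cases hneg : inner ℝ X (w i) ≤ 0
  · rw [norm_add_sq_real, hell]
    linarith
  · push Not at hneg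
    have hall : ∀ j ∈ s, 0 ≤ inner ℝ X (w j) := fun j hj => by linarith [hmin j hj]
    have h1 : ‖X‖ ^ 2 ≤ ‖X + ∑ i ∈ s, c i • w i‖ ^ 2 := by
      rw [norm_add_sq_real, inner_sum]
      have : 0 ≤ ∑ j ∈ s, inner ℝ X (c j • w j) := by
        apply sum_nonneg
        intro j hj
        rw [inner_smul_right]
        exact mul_nonneg (hc j) (hall j hj)
      nlinarith [sq_nonneg ‖∑ i ∈ s, c i • w i‖]
    have h2 : ‖X‖ ≤ ‖X + ∑ i ∈ s, c i • w i‖ :=
      (pow_le_pow_iff_left₀ (norm_nonneg _) (norm_nonneg _) (by norm_num)).1 h1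
    have h3 : ‖X + w i‖ ≤ 3 / 2 := by
      have := norm_add_le X (w i)
      linarith [hw i]
    have h4 : ‖X + w i‖ ^ 2 ≤ (3 / 2) ^ 2 := by
      apply pow_le_pow_left₀ (norm_nonneg _) h3
    rw [hell]
    linarith

/-- The flat case of the inductive step: the minimum over the cube is at least `1 / 2`. -/
lemma flat_case {d : ℕ} (IH : Core ι d) (hd : finrank ℝ E = d + 1) {v : ι → E}
    (hv : ∀ i, ‖v i‖ ≤ 1) {s : Finset ι} {A : E}
    (hA : ‖A‖ ^ 2 ≤ ell (d + 1)) (hB : ‖A + ∑ i ∈ s, v i‖ ^ 2 ≤ ell (d + 1))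
    {y : ι → ℝ} (hy0 : ∀ i, 0 ≤ y i) (hy1 : ∀ i, y i ≤ 1)
    (hmin : ∀ z : ι → ℝ, (∀ i, 0 ≤ z i) → (∀ i, z i ≤ 1) →
      ‖A + ∑ i ∈ s, y i • v i‖ ≤ ‖A + ∑ i ∈ s, z i • v i‖)
    (hfrac' : ((fracSet s y).card : ℝ) ≤ (d : ℝ) + 1)
    (hm : (1 / 2 : ℝ) ≤ ‖A + ∑ i ∈ s, y i • v i‖) :
    ∃ l : List ι, l.Nodup ∧ l.toFinset = s ∧ PB v A l (Lam (d + 1)) := by
  have helld : ell d = ((d : ℝ) + 8) / 4 := rfl
  set M₀ := A + ∑ i ∈ s, y i • v i with hM₀
  set m := ‖M₀‖ with hmdef
  have hmpos : 0 < m := by linarith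
  set u : E := (1 / m) • M₀ with hudef
  have hu : ‖u‖ = 1 := by
    rw [hudef, norm_smul, Real.norm_eq_abs, abs_of_pos (by positivity), ← hmdef]
    field_simp
  have huM : inner ℝ u M₀ = m := by
    rw [hudef, inner_smul_left, real_inner_self_eq_norm_sq]
    simp only [conj_trivial, ← hmdef]
    field_simp
  have hinner : ∀ i, inner ℝ u (v i) = (1 / m) * inner ℝ M₀ (v i) := by
    intro i
    rw [hudef, inner_smul_left]
    simp
  have hposfac : (0 : ℝ) < 1 / m := by positivity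
  have hup : ∀ i ∈ s, y i < 1 → 0 ≤ inner ℝ u (v i) := by
    intro i hi h
    rw [hinner]
    exact mul_nonneg hposfac.le (kkt_up v hv s A y hy0 hy1 hmin hi h)
  have hdown : ∀ i ∈ s, 0 < y i → inner ℝ u (v i) ≤ 0 := by
    intro i hi h
    rw [hinner]
    exact mul_nonpos_of_nonneg_of_nonpos hposfac.le (kkt_down v hv s A y hy0 hy1 hmin hi h)
  -- rounding inside the hyperplane
  have hMperp : perp u hu M₀ = 0 := by
    apply Subtype.ext
    rw [perp_coe, huM, hudef, smul_smul]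
    simp only [Submodule.coe_zero]
    have : m * (1 / m) = 1 := by field_simp
    rw [this, one_smul, sub_self]
  set w : ι → (Submodule.span ℝ {u})ᗮ := fun i => perp u hu (v i) with hw
  have hw1 : ∀ i, ‖w i‖ ≤ 1 := fun i => (perp_norm_le u hu (v i)).trans (hv i)
  obtain ⟨J, hJs, hJ0, hJ1, hJb⟩ := rounding w y hy0 hy1 s 0
  have hE := energy_le w y hy0 hy1 hw1 s
  have hPM : perp u hu (A + ∑ i ∈ J, v i)
      = (0 : (Submodule.span ℝ {u})ᗮ) + ∑ i ∈ J, w i - ∑ i ∈ s, y i • w i := by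
    have h1 : A + ∑ i ∈ J, v i = M₀ + ∑ i ∈ J, v i - ∑ i ∈ s, y i • v i := by
      rw [hM₀]; abel
    rw [h1, map_sub, map_add, hMperp, map_sum, map_sum]
    simp only [map_smul, hw]
  have hPMb : ‖perp u hu (A + ∑ i ∈ J, v i)‖ ^ 2 ≤ ((d : ℝ) + 1) / 4 := by
    rw [hPM]
    have : ‖(0 : (Submodule.span ℝ {u})ᗮ)‖ ^ 2 = 0 := by simp
    rw [this] at hJb
    linarith
  -- heights
  have hJneg : ∀ i ∈ J, inner ℝ u (v i) ≤ 0 := fun i hi => hdown i (hJs hi) (hJ0 i hi)
  have hJpos : ∀ i ∈ s \ J, 0 ≤ inner ℝ u (v i) := by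
    intro i hi
    obtain ⟨h1, h2⟩ := mem_sdiff.1 hi
    exact hup i h1 (hJ1 i h1 h2)
  have hheight : inner ℝ u M₀ = inner ℝ u A + ∑ i ∈ s, y i * inner ℝ u (v i) := by
    rw [hM₀, inner_add_right, inner_sum]
    simp only [inner_smul_right]
  have hyneg : ∀ i ∈ s, y i * inner ℝ u (v i) ≤ 0 := by
    intro i hi
    rcases (hy0 i).eq_or_lt with h | h
    · rw [← h]; simp
    · exact mul_nonpos_of_nonneg_of_nonpos h.le (hdown i hi h)
  have hyneg' : ∀ i ∈ s, 0 ≤ (1 - y i) * inner ℝ u (v i) := by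
    intro i hi
    rcases (hy1 i).eq_or_lt with h | h
    · rw [h]; simp
    · exact mul_nonneg (by linarith) (hup i hi h)
  have hαm : m ≤ inner ℝ u A := by
    have : ∑ i ∈ s, y i * inner ℝ u (v i) ≤ 0 := sum_nonpos hyneg
    linarith
  have hbeta : inner ℝ u (A + ∑ i ∈ s, v i)
      = m + ∑ i ∈ s, (1 - y i) * inner ℝ u (v i) := by
    have h1 : ∑ i ∈ s, (1 - y i) * inner ℝ u (v i)
        = ∑ i ∈ s, inner ℝ u (v i) - ∑ i ∈ s, y i * inner ℝ u (v i) := by
      rw [← sum_sub_distrib]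
      apply sum_congr rfl
      intro i _
      ring
    rw [inner_add_right, inner_sum, h1]
    linarith
  have hβm : m ≤ inner ℝ u (A + ∑ i ∈ s, v i) := by
    rw [hbeta]
    have : 0 ≤ ∑ i ∈ s, (1 - y i) * inner ℝ u (v i) := sum_nonneg hyneg'
    linarith
  have hmid : inner ℝ u (A + ∑ i ∈ J, v i) = m := by
    have h1 : ∑ i ∈ s, y i * inner ℝ u (v i) = ∑ i ∈ J, inner ℝ u (v i) := by
      rw [← sum_sdiff hJs, add_comm]
      have h2 : ∑ i ∈ s \ J, y i * inner ℝ u (v i) = 0 := by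
        apply sum_eq_zero
        intro i hi
        obtain ⟨h3, h4⟩ := mem_sdiff.1 hi
        rcases (hy0 i).eq_or_lt with h | h
        · rw [← h]; simp
        · have h5 := hdown i h3 h
          have h6 := hup i h3 (hJ1 i h3 h4)
          have : inner ℝ u (v i) = 0 := le_antisymm h5 h6
          rw [this, mul_zero]
      rw [h2, add_zero]
      apply sum_congr rfl
      intro i hi
      rcases (hy1 i).eq_or_lt with h | h
      · rw [h, one_mul]
      · have h5 := hdown i (hJs hi) (hJ0 i hi)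
        have h6 := hup i (hJs hi) h
        have : inner ℝ u (v i) = 0 := le_antisymm h5 h6
        rw [this, mul_zero]
    rw [inner_add_right, inner_sum, ← h1]
    linarith
  have hmsq : (1 / 4 : ℝ) ≤ m * m := by nlinarith
  refine flat IH hd hv hJs hu hJneg hJpos (by rw [hmid]; exact hmpos.le) ?_ ?_ ?_ ?_ ?_
  · rw [perp_norm]
    have h1 : m * m ≤ (inner ℝ u A) ^ 2 := by nlinarith
    have h2 : ell (d + 1) = ell d + 1 / 4 := ell_succ d
    nlinarith
  · rw [helld]
    linarith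
  · rw [perp_norm]
    have h1 : m * m ≤ (inner ℝ u (A + ∑ i ∈ s, v i)) ^ 2 := by nlinarith
    have h2 : ell (d + 1) = ell d + 1 / 4 := ell_succ d
    nlinarith
  · exact (inner_sq_le u hu A).trans hA
  · exact (inner_sq_le u hu _).trans hB


/-- The inductive step of `Core`, case of a small minimum over the cube. -/
lemma small_case {d : ℕ} {v : ι → E}
    (hv : ∀ i, ‖v i‖ ≤ 1) {s : Finset ι} (hsne : s.Nonempty)
    (ih : ∀ t ⊂ s, ∀ A : E, ‖A‖ ^ 2 ≤ ell (d + 1) → ‖A + ∑ i ∈ t, v i‖ ^ 2 ≤ ell (d + 1) →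
      ∃ l : List ι, l.Nodup ∧ l.toFinset = t ∧ PB v A l (Lam (d + 1)))
    {A : E}
    (hA : ‖A‖ ^ 2 ≤ ell (d + 1)) (hB : ‖A + ∑ i ∈ s, v i‖ ^ 2 ≤ ell (d + 1))
    {y : ι → ℝ} (hy0 : ∀ i, 0 ≤ y i) (hy1 : ∀ i, y i ≤ 1)
    (hfrac' : ((fracSet s y).card : ℝ) ≤ (d : ℝ) + 1)
    (hm : ‖A + ∑ i ∈ s, y i • v i‖ < 1 / 2) :
    ∃ l : List ι, l.Nodup ∧ l.toFinset = s ∧ PB v A l (Lam (d + 1)) := by
  have hd0 : (0 : ℝ) ≤ d := Nat.cast_nonneg d
  have hAL : ‖A‖ ^ 2 ≤ Lam (d + 1) := hA.trans (ell_le_Lam d)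
  have hBL : ‖A + ∑ i ∈ s, v i‖ ^ 2 ≤ Lam (d + 1) := hB.trans (ell_le_Lam d)
  have hellval : ell (d + 1) = ((d : ℝ) + 9) / 4 := by
    simp only [ell]; push_cast; ring
  set M₀ := A + ∑ i ∈ s, y i • v i with hM₀
  obtain ⟨J, hJs, -, -, hJb⟩ := rounding v y hy0 hy1 s M₀
  have hE := energy_le v y hy0 hy1 hv s
  have hJe : M₀ + ∑ i ∈ J, v i - ∑ i ∈ s, y i • v i = A + ∑ i ∈ J, v i := by
    rw [hM₀]; abel
  rw [hJe] at hJb
  have hM₀sq : ‖M₀‖ ^ 2 ≤ 1 / 4 := by
    have h0 := norm_nonneg M₀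
    nlinarith
  have hMb : ‖A + ∑ i ∈ J, v i‖ ^ 2 ≤ ((d : ℝ) + 2) / 4 := by
    linarith
  have hMell : ‖A + ∑ i ∈ J, v i‖ ^ 2 ≤ ell (d + 1) := by
    rw [hellval]; linarith
  by_cases hJ0 : J = ∅
  · -- peel at the front
    subst hJ0
    simp only [sum_empty, add_zero] at hMb
    obtain ⟨i, hi, hib⟩ := escape (d := d) hv hsne hy0 hMb hm
    have hsub : s.erase i ⊂ s := erase_ssubset hi
    have hend : A + v i + ∑ j ∈ s.erase i, v j = A + ∑ j ∈ s, v j := by
      rw [← add_sum_erase s v hi, add_assoc]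
    obtain ⟨l, h1, h2, h3⟩ := ih _ hsub (A + v i) hib (by rw [hend]; exact hB)
    refine ⟨i :: l, ?_, ?_, ?_⟩
    · rw [List.nodup_cons]
      refine ⟨?_, h1⟩
      intro hil
      have : i ∈ s.erase i := by rw [← h2]; exact List.mem_toFinset.2 hil
      exact (mem_erase.1 this).1 rfl
    · rw [List.toFinset_cons, h2, insert_erase hi]
    · exact PB.cons hAL h3
  by_cases hJs' : J = s
  · -- peel at the back
    subst hJs'
    have hback : (A + ∑ i ∈ J, v i) + ∑ i ∈ J, (1 - y i) • (- v i) = M₀ := by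
      rw [hM₀, add_assoc]
      congr 1
      rw [← sum_add_distrib]
      apply sum_congr rfl
      intro i _
      rw [smul_neg, sub_smul, one_smul]
      abel
    obtain ⟨i, hi, hib⟩ := escape (d := d) (X := A + ∑ i ∈ J, v i) (w := fun i => - v i)
      (fun i => by rw [norm_neg]; exact hv i) hsne (c := fun i => 1 - y i)
      (fun i => by linarith [hy1 i]) hMb (by rw [hback]; exact hm)
    have hsub : J.erase i ⊂ J := erase_ssubset hi
    have hend : A + ∑ j ∈ J.erase i, v j = A + ∑ j ∈ J, v j + - v i := by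
      rw [← add_sum_erase J v hi]
      abel
    obtain ⟨l, h1, h2, h3⟩ := ih _ hsub A hA (by rw [hend]; exact hib)
    refine ⟨l ++ [i], ?_, ?_, ?_⟩
    · rw [List.nodup_append']
      refine ⟨h1, List.nodup_singleton i, ?_⟩
      rw [List.disjoint_singleton]
      intro hil
      have : i ∈ J.erase i := by rw [← h2]; exact List.mem_toFinset.2 hil
      exact (mem_erase.1 this).1 rfl
    · rw [List.toFinset_append, h2]
      simp [insert_erase hi]
    · apply PB.snoc h3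
      rw [sum_map_eq h1 h2, add_assoc, sum_erase_add J v hi]
      exact hBL
  · -- split at the rounding point
    have hJne : J.Nonempty := nonempty_iff_ne_empty.2 hJ0
    have hss : J ⊂ s := ⟨hJs, fun h => hJs' (Subset.antisymm hJs h)⟩
    have hss2 : s \ J ⊂ s := sdiff_ssubset hJs hJne
    obtain ⟨l₁, h1n, h1s, h1b⟩ := ih _ hss A hA hMell
    obtain ⟨l₂, h2n, h2s, h2b⟩ := ih _ hss2 (A + ∑ i ∈ J, v i) hMell
      (by rw [sum_sdiff_add hJs]; exact hB)
    obtain ⟨hn, hs⟩ := order_append hJs h1n h1s h2n h2s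
    refine ⟨l₁ ++ l₂, hn, hs, ?_⟩
    apply PB.append h1b
    rw [sum_map_eq h1n h1s]
    exact h2b


/-- The inductive step of `Core`. -/
lemma core_succ [Fintype ι] {d : ℕ} (IH : Core ι d) : Core ι (d + 1) := by
  intro E _ _ _ hd v hv s
  induction s using Finset.strongInduction with
  | H s ih =>
  intro A hA hB
  have hAL : ‖A‖ ^ 2 ≤ Lam (d + 1) := hA.trans (ell_le_Lam d)
  rcases s.eq_empty_or_nonempty with rfl | hsne
  · refine ⟨[], List.nodup_nil, rfl, ?_⟩
    intro k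
    simpa using hAL
  obtain ⟨y, hy0, hy1, hmin, hfrac⟩ := exists_minimizer v s A
  have hfrac' : ((fracSet s y).card : ℝ) ≤ (d : ℝ) + 1 := by
    rw [hd] at hfrac
    exact_mod_cast hfrac
  by_cases hm : (1 / 2 : ℝ) ≤ ‖A + ∑ i ∈ s, y i • v i‖
  · exact flat_case IH hd hv hA hB hy0 hy1 hmin hfrac' hm
  · push Not at hm
    exact small_case hv hsne ih hA hB hy0 hy1 hfrac' hm

/-- `Core` holds in every dimension. -/
theorem core [Fintype ι] (d : ℕ) : Core ι d := by
  induction d with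
  | zero => exact core_zero
  | succ d ih => exact core_succ ih

end Step

/-- Partial sums of a list as a sum over its positions. -/
lemma sum_take_eq {E : Type} [AddCommMonoid E] (v : ι → E) (l : List ι) (k : ℕ) :
    ((l.take k).map v).sum
      = ∑ i : Fin l.length, if i.val < k then v (l.get i) else 0 := by
  induction l generalizing k with
  | nil => simp
  | cons a t ih =>
    cases k with
    | zero => simp
    | succ k =>
      simp only [List.take_succ_cons, List.map_cons, List.sum_cons, List.length_cons]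
      rw [Fin.sum_univ_succ, ih k]
      simp

/-- The Euclidean Steinitz bound: `S₂(d)² ≤ (d² + 17 d) / 8`. -/
theorem steinitz_bound (d N : ℕ) (v : Fin N → EuclideanSpace ℝ (Fin d)) (hv : ∀ i, ‖v i‖ ≤ 1)
    (h0 : ∑ i, v i = 0) :
    ∃ π : Equiv.Perm (Fin N), ∀ k : ℕ, k ≤ N →
      ‖∑ i : Fin N, (if i.val < k then v (π i) else 0)‖ ^ 2 ≤ ((d : ℝ) ^ 2 + 17 * d) / 8 := by
  have hell : (0 : ℝ) ≤ ell d := by simp only [ell]; positivity
  obtain ⟨l, h1, h2, h3⟩ := core (ι := Fin N) d (EuclideanSpace ℝ (Fin d)) (by simp) v hv univ 0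
    (by simpa using hell) (by simpa [h0] using hell)
  have hmem : ∀ x, x ∈ l := fun x => by
    have : x ∈ l.toFinset := by rw [h2]; exact mem_univ x
    exact List.mem_toFinset.1 this
  have hlen : l.length = N := by
    have h4 := List.toFinset_card_of_nodup h1
    rw [h2] at h4
    simpa using h4.symm
  let e : Fin l.length ≃ Fin N := h1.getEquivOfForallMemList l hmem
  let c : Fin N ≃ Fin l.length := finCongr hlen.symm
  refine ⟨c.trans e, ?_⟩
  intro k _
  have h4 := h3 k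
  rw [zero_add, sum_take_eq] at h4
  have h5 : ∑ i : Fin N, (if i.val < k then v ((c.trans e) i) else 0)
      = ∑ i : Fin l.length, if i.val < k then v (l.get i) else 0 := by
    rw [← Equiv.sum_comp c.symm]
    apply sum_congr rfl
    intro i _
    have h6 : (c.symm i).val = i.val := by simp [c]
    have h7 : (c.trans e) (c.symm i) = l.get i := by
      simp [e, List.Nodup.getEquivOfForallMemList]
    rw [h6, h7]
  rw [h5]
  exact h4

end Vale.Agent.P262.Steinitz
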