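import Mathlib

open Finset BigOperators

namespace Vale.Agent.P262.Weighted

/-- Ambient Euclidean space. -/
abbrev Eu (d : ℕ) := EuclideanSpace ℝ (Fin d)

variable {d : ℕ}

/-- Hilbert-Schmidt form of Bessel's inequality. -/
lemma hs_bessel {ι : Type*} [Fintype ι] {m : ℕ} (e : Fin m → EuclideanSpace ℝ ι)
    (he : Orthonormal ℝ e) (a : ι → Eu d) :
    ∑ j, ‖∑ s, e j s • a s‖ ^ 2 ≤ ∑ s, ‖a s‖ ^ 2 := by
  classical
  -- coordinates
  have hcoord : ∀ (w : Eu d), ‖w‖ ^ 2 = ∑ c, (w c) ^ 2 := by
    intro w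
    rw [EuclideanSpace.real_norm_sq_eq]
  have key : ∀ c : Fin d, ∑ j, (∑ s, e j s * a s c) ^ 2 ≤ ∑ s, (a s c) ^ 2 := by
    intro c
    let f : EuclideanSpace ℝ ι := WithLp.toLp 2 (fun s => a s c)
    have hB := he.sum_inner_products_le (𝕜 := ℝ) (x := f) (s := Finset.univ)
    have h1 : ∀ j, ‖inner ℝ (e j) f‖ ^ 2 = (∑ s, e j s * a s c) ^ 2 := by
      intro j
      rw [Real.norm_eq_abs, sq_abs]
      congr 1
      simp [PiLp.inner_apply, f, mul_comm]
    have h2 : ‖f‖ ^ 2 = ∑ s, (a s c) ^ 2 := by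
      rw [EuclideanSpace.real_norm_sq_eq]
    simp only [h1, h2] at hB
    exact hB
  calc ∑ j, ‖∑ s, e j s • a s‖ ^ 2
      = ∑ j, ∑ c, (∑ s, e j s * a s c) ^ 2 := by
        refine Finset.sum_congr rfl fun j _ => ?_
        rw [hcoord]
        refine Finset.sum_congr rfl fun c _ => ?_
        congr 1
        simp [Finset.sum_apply]
    _ = ∑ c, ∑ j, (∑ s, e j s * a s c) ^ 2 := Finset.sum_comm
    _ ≤ ∑ c, ∑ s, (a s c) ^ 2 := Finset.sum_le_sum fun c _ => key c
    _ = ∑ s, ∑ c, (a s c) ^ 2 := Finset.sum_comm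
    _ = ∑ s, ‖a s‖ ^ 2 := by
        refine Finset.sum_congr rfl fun s _ => ?_
        rw [hcoord]

/-- Fractional prefix sum. -/
noncomputable def pre (v : ℕ → Eu d) (x : ℕ → ℝ) (t : ℕ) : Eu d :=
  ∑ i ∈ range (t + 1), x i • v i

/-- Second order coefficient of the potential along a line. -/
noncomputable def Qf (p : ℕ → ℝ) (v : ℕ → Eu d) (k : ℕ) (y : ℕ → ℝ) : ℝ :=
  ∑ t ∈ range k, p t * (‖pre v y t‖ ^ 2 - 2 * ∑ i ∈ range (t + 1), y i ^ 2)

/-- First order coefficient of the potential along a line. -/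
noncomputable def Lf (p : ℕ → ℝ) (v : ℕ → Eu d) (k : ℕ) (x y : ℕ → ℝ) : ℝ :=
  ∑ t ∈ range k, p t * (2 * inner ℝ (pre v x t) (pre v y t) - 4 * ∑ i ∈ range (t + 1), x i * y i)

/-- The potential. -/
noncomputable def Pot (p : ℕ → ℝ) (v : ℕ → Eu d) (k : ℕ) (x : ℕ → ℝ) : ℝ :=
  ∑ t ∈ range k, p t * (‖pre v x t‖ ^ 2 + 2 * ∑ i ∈ range (t + 1), (1 - x i ^ 2))

lemma pre_line (v : ℕ → Eu d) (x y : ℕ → ℝ) (s : ℝ) (t : ℕ) :
    pre v (fun i => x i + s * y i) t = pre v x t + s • pre v y t := by
  unfold pre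
  rw [Finset.smul_sum, ← Finset.sum_add_distrib]
  refine Finset.sum_congr rfl fun i _ => ?_
  rw [add_smul, mul_smul]

lemma Pot_line (p : ℕ → ℝ) (v : ℕ → Eu d) (k : ℕ) (x y : ℕ → ℝ) (s : ℝ) :
    Pot p v k (fun i => x i + s * y i) = Pot p v k x + s * Lf p v k x y + s ^ 2 * Qf p v k y := by
  unfold Pot Lf Qf
  rw [Finset.mul_sum, Finset.mul_sum, ← Finset.sum_add_distrib, ← Finset.sum_add_distrib]
  refine Finset.sum_congr rfl fun t _ => ?_
  rw [pre_line, norm_add_sq_real, norm_smul, real_inner_smul_right]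
  have h : ∑ i ∈ range (t + 1), (1 - (x i + s * y i) ^ 2)
      = ∑ i ∈ range (t + 1), (1 - x i ^ 2) - 2 * s * ∑ i ∈ range (t + 1), x i * y i
        - s ^ 2 * ∑ i ∈ range (t + 1), y i ^ 2 := by
    rw [Finset.mul_sum, Finset.mul_sum, ← Finset.sum_sub_distrib, ← Finset.sum_sub_distrib]
    refine Finset.sum_congr rfl fun i _ => ?_
    ring
  rw [h, Real.norm_eq_abs, mul_pow, sq_abs]
  ring

lemma Lf_neg (p : ℕ → ℝ) (v : ℕ → Eu d) (k : ℕ) (x y : ℕ → ℝ) :
    Lf p v k x (fun i => - y i) = - Lf p v k x y := by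
  unfold Lf
  rw [← Finset.sum_neg_distrib]
  refine Finset.sum_congr rfl fun t _ => ?_
  have : pre v (fun i => - y i) t = - pre v y t := by
    unfold pre
    rw [← Finset.sum_neg_distrib]
    refine Finset.sum_congr rfl fun i _ => ?_
    rw [neg_smul]
  rw [this, inner_neg_right]
  have h2 : ∑ i ∈ range (t + 1), x i * (- y i) = - ∑ i ∈ range (t + 1), x i * y i := by
    rw [← Finset.sum_neg_distrib]
    refine Finset.sum_congr rfl fun i _ => ?_
    ring
  rw [h2]
  ring

lemma Qf_neg (p : ℕ → ℝ) (v : ℕ → Eu d) (k : ℕ) (y : ℕ → ℝ) :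
    Qf p v k (fun i => - y i) = Qf p v k y := by
  unfold Qf
  refine Finset.sum_congr rfl fun t _ => ?_
  have : pre v (fun i => - y i) t = - pre v y t := by
    unfold pre
    rw [← Finset.sum_neg_distrib]
    refine Finset.sum_congr rfl fun i _ => ?_
    rw [neg_smul]
  rw [this, norm_neg]
  have h2 : ∑ i ∈ range (t + 1), (- y i) ^ 2 = ∑ i ∈ range (t + 1), y i ^ 2 := by
    refine Finset.sum_congr rfl fun i _ => ?_
    ring
  rw [h2]

/-- The tail weight of an index. -/
noncomputable def tw (p : ℕ → ℝ) (k s : ℕ) : ℝ :=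
  ∑ t ∈ range k, if s ≤ t then p t else 0

lemma tw_pos {p : ℕ → ℝ} {k s : ℕ} (hp : ∀ t < k, 0 < p t) (hs : s < k) : 0 < tw p k s := by
  unfold tw
  refine Finset.sum_pos' ?_ ⟨s, Finset.mem_range.mpr hs, ?_⟩
  · intro t ht
    split_ifs with h
    · exact (hp t (Finset.mem_range.mp ht)).le
    · exact le_refl _
  · simp [hp s hs]

/-- Direction coordinates from a vector of the rescaled Euclidean space. -/
noncomputable def yOf (p : ℕ → ℝ) (k : ℕ) (S : Finset ℕ) (u : EuclideanSpace ℝ S) (i : ℕ) : ℝ :=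
  if h : i ∈ S then u ⟨i, h⟩ / Real.sqrt (tw p k i) else 0

lemma yOf_of_not_mem {p : ℕ → ℝ} {k : ℕ} {S : Finset ℕ} (u : EuclideanSpace ℝ S) {i : ℕ}
    (h : i ∉ S) : yOf p k S u i = 0 := by
  simp [yOf, h]

lemma yOf_coe (p : ℕ → ℝ) (k : ℕ) (S : Finset ℕ) (u : EuclideanSpace ℝ S) (s : S) :
    yOf p k S u (s : ℕ) = u s / Real.sqrt (tw p k s) := by
  simp [yOf]

/-- The prefix of a rescaled direction, as a sum over the subtype. -/
lemma pre_yOf (p : ℕ → ℝ) (v : ℕ → Eu d) (k : ℕ) (S : Finset ℕ)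
    (u : EuclideanSpace ℝ S) (t : ℕ) :
    pre v (yOf p k S u) t = ∑ s : S, u s •
      (if (s : ℕ) ≤ t then (1 / Real.sqrt (tw p k s)) • v s else 0) := by
  classical
  unfold pre
  have h1 : ∑ s : S, u s • (if (s : ℕ) ≤ t then (1 / Real.sqrt (tw p k s)) • v s else 0)
      = ∑ i ∈ S, (if i ≤ t then yOf p k S u i • v i else 0) := by
    rw [← Finset.sum_coe_sort S]
    refine Finset.sum_congr rfl fun s _ => ?_
    by_cases h : (s : ℕ) ≤ t
    · simp only [h, if_true, yOf_coe]
      rw [smul_smul]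
      congr 1
      ring
    · simp [h]
  rw [h1]
  have h2 : ∑ i ∈ S, (if i ≤ t then yOf p k S u i • v i else 0)
      = ∑ i ∈ S.filter (fun i => i ≤ t), yOf p k S u i • v i := by
    rw [Finset.sum_filter]
  rw [h2]
  symm
  refine Finset.sum_subset ?_ ?_
  · intro i hi
    rw [Finset.mem_filter] at hi
    exact Finset.mem_range.mpr (Nat.lt_succ_of_le hi.2)
  · intro i hi hi'
    have : i ∉ S := by
      intro hS
      apply hi'
      rw [Finset.mem_filter]
      exact ⟨hS, Nat.le_of_lt_succ (Finset.mem_range.mp hi)⟩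
    rw [yOf_of_not_mem u this, zero_smul]

/-- Energy identity for rescaled directions. -/
lemma energy_yOf {p : ℕ → ℝ} {k : ℕ} (hp : ∀ t < k, 0 < p t) {S : Finset ℕ} (hS : S ⊆ range k)
    (u : EuclideanSpace ℝ S) :
    ∑ t ∈ range k, p t * ∑ i ∈ range (t + 1), yOf p k S u i ^ 2 = ‖u‖ ^ 2 := by
  classical
  have h1 : ∀ t, ∑ i ∈ range (t + 1), yOf p k S u i ^ 2
      = ∑ i ∈ S, if i ≤ t then yOf p k S u i ^ 2 else 0 := by
    intro t
    rw [← Finset.sum_filter]
    symm
    refine Finset.sum_subset ?_ ?_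
    · intro i hi
      rw [Finset.mem_filter] at hi
      exact Finset.mem_range.mpr (Nat.lt_succ_of_le hi.2)
    · intro i hi hi'
      have : i ∉ S := by
        intro hS
        apply hi'
        rw [Finset.mem_filter]
        exact ⟨hS, Nat.le_of_lt_succ (Finset.mem_range.mp hi)⟩
      rw [yOf_of_not_mem u this]
      ring
  calc ∑ t ∈ range k, p t * ∑ i ∈ range (t + 1), yOf p k S u i ^ 2
      = ∑ t ∈ range k, ∑ i ∈ S, p t * (if i ≤ t then yOf p k S u i ^ 2 else 0) := by
        refine Finset.sum_congr rfl fun t _ => ?_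
        rw [h1, Finset.mul_sum]
    _ = ∑ i ∈ S, ∑ t ∈ range k, p t * (if i ≤ t then yOf p k S u i ^ 2 else 0) :=
        Finset.sum_comm
    _ = ∑ i ∈ S, tw p k i * yOf p k S u i ^ 2 := by
        refine Finset.sum_congr rfl fun i _ => ?_
        unfold tw
        rw [Finset.sum_mul]
        refine Finset.sum_congr rfl fun t _ => ?_
        split_ifs <;> ring
    _ = ∑ s : S, (u s) ^ 2 := by
        rw [← Finset.sum_coe_sort S]
        refine Finset.sum_congr rfl fun s _ => ?_
        rw [yOf_coe, div_pow, Real.sq_sqrt (tw_pos hp (Finset.mem_range.mp (hS s.2))).le]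
        have := (tw_pos hp (Finset.mem_range.mp (hS s.2))).ne'
        field_simp
    _ = ‖u‖ ^ 2 := by
        rw [EuclideanSpace.real_norm_sq_eq]

/-- Core lemma: in every large subspace of the rescaled space there is a unit vector
whose second order coefficient is nonpositive. -/
lemma exists_dir {p : ℕ → ℝ} {v : ℕ → Eu d} {k : ℕ} (hp : ∀ t < k, 0 < p t)
    (hv : ∀ i, ‖v i‖ ≤ 1) {S : Finset ℕ} (hS : S ⊆ range k)
    (K : Submodule ℝ (EuclideanSpace ℝ S))
    (hK : S.card ≤ 2 * Module.finrank ℝ K) (hpos : 0 < Module.finrank ℝ K) :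
    ∃ u ∈ K, u ≠ 0 ∧ Qf p v k (yOf p k S u) ≤ 0 := by
  classical
  set m := Module.finrank ℝ K with hm
  let B := stdOrthonormalBasis ℝ K
  let e : Fin m → EuclideanSpace ℝ S := fun j => ((B j : K) : EuclideanSpace ℝ S)
  have he : Orthonormal ℝ e := B.orthonormal.comp_linearIsometry K.subtypeₗᵢ
  -- the Hilbert-Schmidt bound
  let a : ℕ → S → Eu d := fun t s =>
    if (s : ℕ) ≤ t then (1 / Real.sqrt (tw p k s)) • v s else 0
  have hT : ∀ j, ∑ t ∈ range k, p t * ‖pre v (yOf p k S (e j)) t‖ ^ 2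
      = ∑ t ∈ range k, p t * ‖∑ s, e j s • a t s‖ ^ 2 := by
    intro j
    refine Finset.sum_congr rfl fun t _ => ?_
    rw [pre_yOf]
  have hsum : ∑ j, ∑ t ∈ range k, p t * ‖pre v (yOf p k S (e j)) t‖ ^ 2 ≤ (S.card : ℝ) := by
    calc ∑ j, ∑ t ∈ range k, p t * ‖pre v (yOf p k S (e j)) t‖ ^ 2
        = ∑ t ∈ range k, p t * ∑ j, ‖∑ s, e j s • a t s‖ ^ 2 := by
          simp only [hT]
          rw [Finset.sum_comm]
          refine Finset.sum_congr rfl fun t _ => ?_
          rw [Finset.mul_sum]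
      _ ≤ ∑ t ∈ range k, p t * ∑ s, ‖a t s‖ ^ 2 := by
          refine Finset.sum_le_sum fun t ht => ?_
          exact mul_le_mul_of_nonneg_left (hs_bessel e he (a t)) (hp t (Finset.mem_range.mp ht)).le
      _ ≤ ∑ t ∈ range k, p t * ∑ s : S, (if (s : ℕ) ≤ t then 1 / tw p k s else 0) := by
          refine Finset.sum_le_sum fun t ht => ?_
          refine mul_le_mul_of_nonneg_left ?_ (hp t (Finset.mem_range.mp ht)).le
          refine Finset.sum_le_sum fun s _ => ?_
          have hD := tw_pos hp (Finset.mem_range.mp (hS s.2))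
          by_cases h : (s : ℕ) ≤ t
          · simp only [a, h, if_true]
            rw [norm_smul, mul_pow, Real.norm_eq_abs, sq_abs, div_pow, one_pow,
              Real.sq_sqrt hD.le]
            have h1 : ‖v s‖ ^ 2 ≤ 1 := by
              have := hv s
              nlinarith [norm_nonneg (v s)]
            have h2 : 0 ≤ 1 / tw p k s := by positivity
            nlinarith
          · simp [a, h]
      _ = ∑ s : S, ∑ t ∈ range k, p t * (if (s : ℕ) ≤ t then 1 / tw p k s else 0) := by
          simp only [Finset.mul_sum]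
          rw [Finset.sum_comm]
      _ = ∑ s : S, (1 : ℝ) := by
          refine Finset.sum_congr rfl fun s _ => ?_
          have hD := tw_pos hp (Finset.mem_range.mp (hS s.2))
          have : ∑ t ∈ range k, p t * (if (s : ℕ) ≤ t then 1 / tw p k s else 0)
              = (∑ t ∈ range k, if (s : ℕ) ≤ t then p t else 0) * (1 / tw p k s) := by
            rw [Finset.sum_mul]
            refine Finset.sum_congr rfl fun t _ => ?_
            split_ifs <;> ring
          rw [this]
          change tw p k s * (1 / tw p k s) = 1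
          field_simp
      _ = (S.card : ℝ) := by
          simp
  -- pick a good basis vector
  have hne : (Finset.univ : Finset (Fin m)).Nonempty := by
    refine ⟨⟨0, hpos⟩, Finset.mem_univ _⟩
  have hex : ∃ j ∈ (Finset.univ : Finset (Fin m)),
      ∑ t ∈ range k, p t * ‖pre v (yOf p k S (e j)) t‖ ^ 2 ≤ 2 := by
    by_contra hcon
    push Not at hcon
    have : ∑ j : Fin m, (2 : ℝ) < ∑ j, ∑ t ∈ range k, p t * ‖pre v (yOf p k S (e j)) t‖ ^ 2 :=
      Finset.sum_lt_sum_of_nonempty hne hcon
    have h2 : ∑ j : Fin m, (2 : ℝ) = 2 * m := by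
      simp
      ring
    have h3 : (S.card : ℝ) ≤ 2 * m := by exact_mod_cast hK
    linarith
  obtain ⟨j, -, hj⟩ := hex
  have hnorm : ‖e j‖ = 1 := he.1 j
  refine ⟨e j, (B j : K).2, ?_, ?_⟩
  · intro h0
    rw [h0, norm_zero] at hnorm
    exact zero_ne_one hnorm
  · have hen := energy_yOf hp hS (e j)
    rw [hnorm] at hen
    unfold Qf
    have : ∑ t ∈ range k, p t *
        (‖pre v (yOf p k S (e j)) t‖ ^ 2 - 2 * ∑ i ∈ range (t + 1), yOf p k S (e j) i ^ 2)
        = ∑ t ∈ range k, p t * ‖pre v (yOf p k S (e j)) t‖ ^ 2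
          - 2 * ∑ t ∈ range k, p t * ∑ i ∈ range (t + 1), yOf p k S (e j) i ^ 2 := by
      rw [Finset.mul_sum, ← Finset.sum_sub_distrib]
      refine Finset.sum_congr rfl fun t _ => ?_
      ring
    rw [this, hen]
    linarith

/-- The alive coordinates among the first `k`. -/
noncomputable def alive (k : ℕ) (x : ℕ → ℝ) : Finset ℕ :=
  (range k).filter (fun i => |x i| < 1)

lemma alive_subset (k : ℕ) (x : ℕ → ℝ) : alive k x ⊆ range k := Finset.filter_subset _ _

/-- One step of the walk: move along `±y` until a coordinate freezes. -/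
lemma move {p : ℕ → ℝ} {v : ℕ → Eu d} {k : ℕ} {x y : ℕ → ℝ}
    (hcube : ∀ i, |x i| ≤ 1)
    (hsupp : ∀ i, i ∉ alive k x → y i = 0)
    (hne : ∃ i ∈ alive k x, y i ≠ 0)
    (hQ : Qf p v k y ≤ 0) :
    ∃ s : ℝ, (∀ i, |x i + s * y i| ≤ 1) ∧
      (alive k (fun i => x i + s * y i)).card < (alive k x).card ∧
      Pot p v k (fun i => x i + s * y i) ≤ Pot p v k x := by
  classical
  -- reduce to the case of nonpositive first order coefficient
  suffices H : ∀ z : ℕ → ℝ, (∀ i, i ∉ alive k x → z i = 0) → (∃ i ∈ alive k x, z i ≠ 0) →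
      Qf p v k z ≤ 0 → Lf p v k x z ≤ 0 →
      ∃ s : ℝ, (∀ i, |x i + s * z i| ≤ 1) ∧
      (alive k (fun i => x i + s * z i)).card < (alive k x).card ∧
      Pot p v k (fun i => x i + s * z i) ≤ Pot p v k x by
    by_cases hb : Lf p v k x y ≤ 0
    · exact H y hsupp hne hQ hb
    · push Not at hb
      obtain ⟨s, h1, h2, h3⟩ := H (fun i => - y i)
        (fun i hi => by simp [hsupp i hi])
        (by
          obtain ⟨i, hi, hy⟩ := hne
          exact ⟨i, hi, neg_ne_zero.mpr hy⟩)
        (by rw [Qf_neg]; exact hQ)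
        (by rw [Lf_neg]; linarith)
      refine ⟨-s, ?_, ?_, ?_⟩
      · intro i
        have := h1 i
        have e : x i + -s * y i = x i + s * -y i := by ring
        rw [e]; exact this
      · have e : (fun i => x i + -s * y i) = (fun i => x i + s * -y i) := by
          funext i; ring
        rw [e]; exact h2
      · have e : (fun i => x i + -s * y i) = (fun i => x i + s * -y i) := by
          funext i; ring
        rw [e]; exact h3
  intro z hzs hzne hzQ hzL
  set T := (alive k x).filter (fun i => z i ≠ 0) with hT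
  have hTne : T.Nonempty := by
    obtain ⟨i, hi, hz⟩ := hzne
    exact ⟨i, Finset.mem_filter.mpr ⟨hi, hz⟩⟩
  let τ : ℕ → ℝ := fun i => (1 - SignType.sign (z i) * x i) / |z i|
  obtain ⟨i0, hi0, hmin⟩ := Finset.exists_min_image T τ hTne
  have hi0' := Finset.mem_filter.mp hi0
  have hτ_nonneg : ∀ i ∈ T, 0 < τ i := by
    intro i hi
    have hi' := Finset.mem_filter.mp hi
    have hal := (Finset.mem_filter.mp hi'.1).2
    have hz : 0 < |z i| := abs_pos.mpr hi'.2
    refine div_pos ?_ hz
    rcases lt_or_gt_of_ne hi'.2 with h | h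
    · rw [sign_neg h]
      have := abs_lt.mp hal
      simp
      linarith [this.1]
    · rw [sign_pos h]
      have := abs_lt.mp hal
      simp
      linarith [this.2]
  set s := τ i0 with hs
  have hs_pos : 0 < s := hτ_nonneg i0 hi0
  have hcube' : ∀ i, |x i + s * z i| ≤ 1 := by
    intro i
    by_cases hz : z i = 0
    · simp [hz, hcube i]
    · have hal : i ∈ alive k x := by
        by_contra hcon
        exact hz (hzs i hcon)
      have hiT : i ∈ T := Finset.mem_filter.mpr ⟨hal, hz⟩
      have hle : s ≤ τ i := hmin i hiT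
      have hxi := abs_le.mp (hcube i)
      rcases lt_or_gt_of_ne hz with h | h
      · have hτ : τ i = (1 + x i) / (- z i) := by
          simp only [τ]
          rw [sign_neg h, abs_of_neg h]
          simp
        rw [hτ, le_div_iff₀ (by linarith)] at hle
        rw [abs_le]
        constructor
        · nlinarith
        · nlinarith
      · have hτ : τ i = (1 - x i) / z i := by
          simp only [τ]
          rw [sign_pos h, abs_of_pos h]
          simp
        rw [hτ, le_div_iff₀ h] at hle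
        rw [abs_le]
        constructor
        · nlinarith
        · nlinarith
  have hhit : |x i0 + s * z i0| = 1 := by
    have hz := hi0'.2
    rcases lt_or_gt_of_ne hz with h | h
    · have hτ : s = (1 + x i0) / (- z i0) := by
        simp only [hs, τ]
        rw [sign_neg h, abs_of_neg h]
        simp
      have : x i0 + s * z i0 = -1 := by
        rw [hτ]
        have : z i0 ≠ 0 := hz
        have h2 : - z i0 ≠ 0 := neg_ne_zero.mpr this
        field_simp
        ring
      rw [this]; simp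
    · have hτ : s = (1 - x i0) / z i0 := by
        simp only [hs, τ]
        rw [sign_pos h, abs_of_pos h]
        simp
      have : x i0 + s * z i0 = 1 := by
        rw [hτ]
        have : z i0 ≠ 0 := hz
        field_simp
        ring
      rw [this]; simp
  refine ⟨s, hcube', ?_, ?_⟩
  · apply Finset.card_lt_card
    refine ⟨?_, ?_⟩
    · intro i hi
      have hi' := Finset.mem_filter.mp hi
      by_contra hcon
      have hz := hzs i hcon
      have : |x i + s * z i| = |x i| := by simp [hz]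
      rw [this] at hi'
      exact hcon (Finset.mem_filter.mpr hi')
    · intro hcon
      have := hcon hi0'.1
      have h3 := (Finset.mem_filter.mp this).2
      rw [hhit] at h3
      exact lt_irrefl _ h3
  · rw [Pot_line]
    have h1 : s * Lf p v k x z ≤ 0 := mul_nonpos_of_nonneg_of_nonpos hs_pos.le hzL
    have h2 : s ^ 2 * Qf p v k z ≤ 0 := mul_nonpos_of_nonneg_of_nonpos (sq_nonneg s) hzQ
    linarith

/-- The closure map on the rescaled space. -/
noncomputable def closureMap (p : ℕ → ℝ) (v : ℕ → Eu d) (k : ℕ) (S : Finset ℕ) :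
    EuclideanSpace ℝ S →ₗ[ℝ] Eu d where
  toFun u := ∑ s : S, (u s / Real.sqrt (tw p k s)) • v s
  map_add' := by
    intro a b
    rw [← Finset.sum_add_distrib]
    refine Finset.sum_congr rfl fun s _ => ?_
    rw [← add_smul]
    congr 1
    simp [add_div]
  map_smul' := by
    intro c a
    simp only [RingHom.id_apply, Finset.smul_sum]
    refine Finset.sum_congr rfl fun s _ => ?_
    rw [smul_smul]
    congr 1
    simp [mul_div_assoc]

lemma sum_yOf (p : ℕ → ℝ) (v : ℕ → Eu d) (k : ℕ) {S : Finset ℕ} (hS : S ⊆ range k)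
    (u : EuclideanSpace ℝ S) :
    ∑ i ∈ range k, yOf p k S u i • v i = closureMap p v k S u := by
  classical
  change _ = ∑ s : S, (u s / Real.sqrt (tw p k s)) • v s
  have h1 : ∑ s : S, (u s / Real.sqrt (tw p k s)) • v s = ∑ i ∈ S, yOf p k S u i • v i := by
    rw [← Finset.sum_coe_sort S]
    refine Finset.sum_congr rfl fun s _ => ?_
    rw [yOf_coe]
  rw [h1]
  symm
  refine Finset.sum_subset hS ?_
  intro i _ hi
  rw [yOf_of_not_mem u hi, zero_smul]

lemma exists_yOf_ne {p : ℕ → ℝ} {k : ℕ} {S : Finset ℕ} (hp : ∀ t < k, 0 < p t)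
    (hS : S ⊆ range k) {u : EuclideanSpace ℝ S} (hu : u ≠ 0) :
    ∃ i ∈ S, yOf p k S u i ≠ 0 := by
  by_contra hcon
  push Not at hcon
  apply hu
  ext s
  have h := hcon s s.2
  rw [yOf_coe, div_eq_zero_iff] at h
  rcases h with h | h
  · simpa using h
  · exact absurd h (Real.sqrt_pos.mpr (tw_pos hp (Finset.mem_range.mp (hS s.2)))).ne'

/-- Final rounding: freeze every coordinate without increasing the potential. -/
lemma round_all {p : ℕ → ℝ} {v : ℕ → Eu d} {k : ℕ} (hp : ∀ t < k, 0 < p t)
    (hv : ∀ i, ‖v i‖ ≤ 1) :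
    ∀ (n : ℕ) (x : ℕ → ℝ), (alive k x).card = n → (∀ i, |x i| ≤ 1) →
      ∃ x' : ℕ → ℝ, (∀ i, |x' i| ≤ 1) ∧ alive k x' = ∅ ∧ Pot p v k x' ≤ Pot p v k x := by
  intro n
  induction n using Nat.strong_induction_on with
  | _ n ih =>
    intro x hn hcube
    by_cases hemp : alive k x = ∅
    · exact ⟨x, hcube, hemp, le_refl _⟩
    · have hne : (alive k x).Nonempty := Finset.nonempty_iff_ne_empty.mpr hemp
      have hScard : 0 < (alive k x).card := Finset.card_pos.mpr hne
      have hfr : Module.finrank ℝ (⊤ : Submodule ℝ (EuclideanSpace ℝ (alive k x)))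
          = (alive k x).card := by
        rw [finrank_top, finrank_euclideanSpace, Fintype.card_coe]
      obtain ⟨u, -, hu, hQ⟩ := exists_dir (p := p) (v := v) hp hv (alive_subset k x)
        (⊤ : Submodule ℝ (EuclideanSpace ℝ (alive k x)))
        (by rw [hfr]; omega) (by rw [hfr]; exact hScard)
      obtain ⟨i, hi, hyi⟩ := exists_yOf_ne hp (alive_subset k x) hu
      obtain ⟨s, h1, h2, h3⟩ := move (p := p) (v := v) (k := k) (x := x)
        (y := yOf p k (alive k x) u) hcube
        (fun i hi => yOf_of_not_mem u hi) ⟨i, hi, hyi⟩ hQ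
      obtain ⟨x', h1', h2', h3'⟩ := ih _ (by rw [← hn]; exact h2) _ rfl h1
      exact ⟨x', h1', h2', h3'.trans h3⟩

/-- The invariant of the arrival process. -/
structure Good (p : ℕ → ℝ) (v : ℕ → Eu d) (k : ℕ) (x : ℕ → ℝ) : Prop where
  cube : ∀ i, |x i| ≤ 1
  zero : ∀ i, k ≤ i → x i = 0
  closed : ∑ i ∈ range k, x i • v i = 0
  card : (alive k x).card + 1 ≤ 2 * d
  pot : Pot p v k x ≤ 4 * d * ∑ t ∈ range k, p t

lemma good_zero (p : ℕ → ℝ) (v : ℕ → Eu d) (hd : 1 ≤ d) : Good p v 0 (fun _ => 0) where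
  cube := by simp
  zero := by simp
  closed := by simp
  card := by
    simp [alive]
    omega
  pot := by simp [Pot]

lemma alive_succ_card (k : ℕ) (x : ℕ → ℝ) :
    (alive (k + 1) x).card ≤ (alive k x).card + 1 := by
  classical
  have : alive (k + 1) x ⊆ insert k (alive k x) := by
    intro i hi
    have hi' := Finset.mem_filter.mp hi
    rw [Finset.mem_insert]
    by_cases h : i = k
    · exact Or.inl h
    · right
      refine Finset.mem_filter.mpr ⟨?_, hi'.2⟩
      have := Finset.mem_range.mp hi'.1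
      exact Finset.mem_range.mpr (by omega)
  exact (Finset.card_le_card this).trans (Finset.card_insert_le _ _)

/-- Sum of defects on a prefix is at most the number of alive coordinates. -/
lemma defect_le (k : ℕ) {x : ℕ → ℝ} (hcube : ∀ i, |x i| ≤ 1) :
    ∑ i ∈ range k, (1 - x i ^ 2) ≤ ((alive k x).card : ℝ) := by
  classical
  have h : ∑ i ∈ range k, (1 - x i ^ 2) ≤ ∑ i ∈ range k, (if |x i| < 1 then (1 : ℝ) else 0) := by
    refine Finset.sum_le_sum fun i _ => ?_
    split_ifs with h
    · nlinarith [sq_nonneg (x i)]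
    · have h1 : 1 ≤ |x i| := not_lt.mp h
      have h2 : |x i| = 1 := le_antisymm (hcube i) h1
      have h3 : x i ^ 2 = 1 := by
        rw [← sq_abs, h2]; norm_num
      linarith
  refine h.trans (le_of_eq ?_)
  rw [alive, Finset.card_filter]
  push_cast
  rfl

lemma good_step {p : ℕ → ℝ} {v : ℕ → Eu d} (hp : ∀ t, 0 < p t) (hv : ∀ i, ‖v i‖ ≤ 1) {k : ℕ}
    {x : ℕ → ℝ} (h : Good p v k x) : ∃ x', Good p v (k + 1) x' := by
  classical
  -- the potential after arrival
  have hxk : x k = 0 := h.zero k (le_refl _)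
  have hpre : pre v x k = 0 := by
    unfold pre
    rw [Finset.sum_range_succ, hxk, zero_smul, add_zero]
    exact h.closed
  have hsum : ∑ i ∈ range (k + 1), x i • v i = 0 := hpre
  have hcardle : (alive (k + 1) x).card ≤ 2 * d := by
    have := alive_succ_card k x
    have := h.card
    omega
  have hPot : Pot p v (k + 1) x ≤ 4 * d * ∑ t ∈ range (k + 1), p t := by
    have e1 : Pot p v (k + 1) x = Pot p v k x +
        p k * (‖pre v x k‖ ^ 2 + 2 * ∑ i ∈ range (k + 1), (1 - x i ^ 2)) := by
      unfold Pot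
      rw [Finset.sum_range_succ]
    have e2 : ∑ t ∈ range (k + 1), p t = ∑ t ∈ range k, p t + p k := Finset.sum_range_succ _ _
    rw [e1, hpre, e2]
    have hdef := defect_le (k + 1) h.cube
    have hcard' : ((alive (k + 1) x).card : ℝ) ≤ 2 * d := by exact_mod_cast hcardle
    have hpk := hp k
    have h3 := h.pot
    have h4 : p k * (‖(0 : Eu d)‖ ^ 2 + 2 * ∑ i ∈ range (k + 1), (1 - x i ^ 2)) ≤ p k * (4 * d) := by
      refine mul_le_mul_of_nonneg_left ?_ hpk.le
      rw [norm_zero]
      nlinarith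
    nlinarith
  by_cases hbig : (alive (k + 1) x).card + 1 ≤ 2 * d
  · refine ⟨x, h.cube, ?_, hsum, hbig, hPot⟩
    intro i hi
    exact h.zero i (by omega)
  · -- the alive set has size exactly `2d`: move in the kernel of the closure map
    have hcardeq : (alive (k + 1) x).card = 2 * d := by omega
    set S := alive (k + 1) x with hS
    have hSsub : S ⊆ range (k + 1) := alive_subset _ _
    set L := closureMap p v (k + 1) S with hL
    have hrank : Module.finrank ℝ (LinearMap.range L) ≤ d := by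
      have := Submodule.finrank_le (LinearMap.range L)
      rwa [finrank_euclideanSpace, Fintype.card_fin] at this
    have hkerrank : Module.finrank ℝ (LinearMap.range L) + Module.finrank ℝ (LinearMap.ker L)
        = S.card := by
      rw [LinearMap.finrank_range_add_finrank_ker, finrank_euclideanSpace, Fintype.card_coe]
    have hd1 : 1 ≤ d := by
      have := h.card
      omega
    have hK : S.card ≤ 2 * Module.finrank ℝ (LinearMap.ker L) := by omega
    have hKpos : 0 < Module.finrank ℝ (LinearMap.ker L) := by omega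
    obtain ⟨u, huK, hu, hQ⟩ := exists_dir (p := p) (v := v) (k := k + 1) (fun t _ => hp t) hv
      hSsub (LinearMap.ker L) hK hKpos
    obtain ⟨i, hi, hyi⟩ := exists_yOf_ne (p := p) (k := k + 1) (fun t _ => hp t) hSsub hu
    obtain ⟨s, h1, h2, h3⟩ := move (p := p) (v := v) (k := k + 1) (x := x)
        (y := yOf p (k + 1) S u) h.cube
        (fun i hi => yOf_of_not_mem u hi) ⟨i, hi, hyi⟩ hQ
    refine ⟨fun i => x i + s * yOf p (k + 1) S u i, h1, ?_, ?_, ?_, h3.trans hPot⟩
    · intro i hi
      have hnS : i ∉ S := fun hc => by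
        have := Finset.mem_range.mp (hSsub hc)
        omega
      rw [yOf_of_not_mem u hnS, h.zero i (by omega)]
      ring
    · have hker : ∑ i ∈ range (k + 1), yOf p (k + 1) S u i • v i = 0 := by
        rw [sum_yOf p v (k + 1) hSsub u]
        exact LinearMap.mem_ker.mp huK
      calc ∑ i ∈ range (k + 1), (x i + s * yOf p (k + 1) S u i) • v i
          = ∑ i ∈ range (k + 1), x i • v i + s • ∑ i ∈ range (k + 1), yOf p (k + 1) S u i • v i := by
            rw [Finset.smul_sum, ← Finset.sum_add_distrib]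
            refine Finset.sum_congr rfl fun i _ => ?_
            rw [add_smul, mul_smul]
        _ = 0 := by rw [hsum, hker, smul_zero, add_zero]
    · have h2' : (alive (k + 1) fun i => x i + s * yOf p (k + 1) S u i).card < S.card := h2
      omega

lemma good_exists {p : ℕ → ℝ} {v : ℕ → Eu d} (hp : ∀ t, 0 < p t) (hv : ∀ i, ‖v i‖ ≤ 1)
    (hd : 1 ≤ d) (N : ℕ) : ∃ x, Good p v N x := by
  induction N with
  | zero => exact ⟨_, good_zero p v hd⟩
  | succ k ih =>
    obtain ⟨x, hx⟩ := ih
    exact good_step hp hv hx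

/-- The main theorem for positive weights. -/
theorem main_pos {p : ℕ → ℝ} {v : ℕ → Eu d} (hp : ∀ t, 0 < p t) (hv : ∀ i, ‖v i‖ ≤ 1)
    (hd : 1 ≤ d) (N : ℕ) :
    ∃ ε : ℕ → ℝ, (∀ i, ε i = 1 ∨ ε i = -1) ∧
      ∑ t ∈ range N, p t * ‖∑ i ∈ range (t + 1), ε i • v i‖ ^ 2
        ≤ 4 * d * ∑ t ∈ range N, p t := by
  classical
  obtain ⟨x, hx⟩ := good_exists (p := p) (v := v) hp hv hd N
  obtain ⟨x', hc, he, hpot⟩ := round_all (k := N) (p := p) (v := v) (fun t _ => hp t) hv _ x rfl hx.cube
  have hone : ∀ i < N, x' i = 1 ∨ x' i = -1 := by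
    intro i hi
    have hn : i ∉ alive N x' := by rw [he]; simp
    have h1 : ¬ |x' i| < 1 := fun hc' => hn (Finset.mem_filter.mpr ⟨Finset.mem_range.mpr hi, hc'⟩)
    have h2 : |x' i| = 1 := le_antisymm (hc i) (not_lt.mp h1)
    rcases abs_eq (by norm_num : (0 : ℝ) ≤ 1) |>.mp h2 with h | h
    · exact Or.inl h
    · exact Or.inr h
  refine ⟨fun i => if i < N then x' i else 1, ?_, ?_⟩
  · intro i
    by_cases h : i < N
    · simpa [h] using hone i h
    · simp [h]
  · refine le_trans (le_of_eq ?_) (hpot.trans hx.pot)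
    unfold Pot pre
    refine Finset.sum_congr rfl fun t ht => ?_
    have ht' := Finset.mem_range.mp ht
    have hdef : ∑ i ∈ range (t + 1), (1 - x' i ^ 2) = 0 := by
      refine Finset.sum_eq_zero fun i hi => ?_
      have hi' : i < N := by
        have := Finset.mem_range.mp hi
        omega
      rcases hone i hi' with h | h <;> rw [h] <;> norm_num
    rw [hdef]
    have hs : ∑ i ∈ range (t + 1), (if i < N then x' i else 1) • v i
        = ∑ i ∈ range (t + 1), x' i • v i := by
      refine Finset.sum_congr rfl fun i hi => ?_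
      have hi' : i < N := by
        have := Finset.mem_range.mp hi
        omega
      simp [hi']
    rw [hs]
    ring

/-- The main theorem, nonnegative weights. -/
theorem main_nonneg {p : ℕ → ℝ} {v : ℕ → Eu d} (hp : ∀ t, 0 ≤ p t) (hv : ∀ i, ‖v i‖ ≤ 1) (N : ℕ) :
    ∃ ε : ℕ → ℝ, (∀ i, ε i = 1 ∨ ε i = -1) ∧
      ∑ t ∈ range N, p t * ‖∑ i ∈ range (t + 1), ε i • v i‖ ^ 2
        ≤ 4 * d * ∑ t ∈ range N, p t := by
  classical
  by_cases hd : d = 0
  · subst hd
    refine ⟨fun _ => 1, fun _ => Or.inl rfl, ?_⟩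
    have h0 : ∀ w : Eu 0, w = 0 := fun w => Subsingleton.elim _ _
    have : ∀ t, ‖∑ i ∈ range (t + 1), ((fun _ => (1 : ℝ)) i) • v i‖ = 0 := by
      intro t
      rw [h0 (∑ i ∈ range (t + 1), ((fun _ => (1 : ℝ)) i) • v i), norm_zero]
    simp only [this]
    simp
  have hd1 : 1 ≤ d := Nat.one_le_iff_ne_zero.mpr hd
  -- minimise over the finitely many sign patterns on `range N`
  let sg : Finset ℕ → ℕ → ℝ := fun A i => if i ∈ A then 1 else -1
  let cost : Finset ℕ → ℝ := fun A =>
    ∑ t ∈ range N, p t * ‖∑ i ∈ range (t + 1), sg A i • v i‖ ^ 2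
  obtain ⟨A, -, hA⟩ := Finset.exists_min_image (Finset.range N).powerset cost
    ⟨∅, Finset.empty_mem_powerset _⟩
  refine ⟨sg A, ?_, ?_⟩
  · intro i
    by_cases h : i ∈ A <;> simp [sg, h]
  · change cost A ≤ _
    refine le_of_forall_pos_le_add fun η hη => ?_
    -- a small perturbation of the weights
    set D : ℝ := 4 * d * N + 1 with hD
    have hDpos : 0 < D := by positivity
    set δ : ℝ := η / D with hδ
    have hδpos : 0 < δ := div_pos hη hDpos
    obtain ⟨ε, hε, hsum⟩ := main_pos (p := fun t => p t + δ) (v := v)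
      (fun t => by linarith [hp t]) hv hd1 N
    -- the pattern of `ε`
    let B : Finset ℕ := (range N).filter (fun i => ε i = 1)
    have hB : ∀ t ∈ range N, ∑ i ∈ range (t + 1), sg B i • v i = ∑ i ∈ range (t + 1), ε i • v i := by
      intro t ht
      refine Finset.sum_congr rfl fun i hi => ?_
      have hi' : i < N := by
        have h1 := Finset.mem_range.mp ht
        have h2 := Finset.mem_range.mp hi
        omega
      have : sg B i = ε i := by
        by_cases h : ε i = 1
        · have hm : i ∈ B := Finset.mem_filter.mpr ⟨Finset.mem_range.mpr hi', h⟩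
          simp [sg, hm, h]
        · have hm : i ∉ B := fun hc => h (Finset.mem_filter.mp hc).2
          simp only [sg, hm, if_false]
          rcases hε i with h' | h'
          · exact absurd h' h
          · exact h'.symm
      rw [this]
    have hcostB : cost B ≤ ∑ t ∈ range N, (p t + δ) * ‖∑ i ∈ range (t + 1), ε i • v i‖ ^ 2 := by
      refine Finset.sum_le_sum fun t ht => ?_
      rw [hB t ht]
      have := sq_nonneg ‖∑ i ∈ range (t + 1), ε i • v i‖
      nlinarith
    have hBmem : B ∈ (Finset.range N).powerset :=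
      Finset.mem_powerset.mpr (Finset.filter_subset _ _)
    have h1 := hA B hBmem
    have h2 : 4 * (d : ℝ) * ∑ t ∈ range N, (p t + δ) = 4 * d * ∑ t ∈ range N, p t + 4 * d * N * δ := by
      rw [Finset.sum_add_distrib]
      simp
      ring
    have h3 : 4 * (d : ℝ) * N * δ ≤ η := by
      have : 4 * (d : ℝ) * N * δ = (4 * d * N) / D * η := by
        rw [hδ]
        field_simp
      rw [this]
      have h4 : (4 * (d : ℝ) * N) / D ≤ 1 := by
        rw [div_le_one hDpos, hD]
        linarith
      have := mul_le_mul_of_nonneg_right h4 hη.le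
      linarith
    linarith

end Vale.Agent.P262.Weighted
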